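import Vale.Agent.P159.H879.StartV
import Vale.Agent.P159.H864.Fou2

/-!
STARTV: the oscillation constant `Lc` (self energy of the constant mode) is at least four times the
charge one activity; at the critical point it decays slower than every power.
-/

set_option linter.all false

open MeasureTheory Filter Topology Matrix

namespace Vale.Agent.P159.H879

open Vale.Agent.P159 Vale.Agent.P159.H513
open Vale.Agent.P159.TM.H104 (EM)
open Vale.Agent.P159.H37 (qf bf re wM ZM Zn Zq Gm PK Ev Ght Gt Pik)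
open Vale.Agent.P159.TM.SpecC (Tor wT)
open Vale.Agent.P159.H896 (om WM WP Om)
open Vale.Agent.P159.H43 (Lc)
open Vale.Agent.P159.H145 (Per cs LM)

section gen

variable {V : Type} [Fintype V] [DecidableEq V] {w : (V → ℤ) → ℝ} {M : Matrix V V ℝ}

lemma ph_halfN (q : ℤ) : H896.ph (-q) (1 / 2) = (-1) ^ q := by
  rw [H896.ph_half, _root_.zpow_neg, ← _root_.inv_zpow]
  norm_num

/-- the drop of the partition function at the half integer shift -/
theorem ZM_half (h : WP w M) : 4 * om w M 1 * Zn w M 0 ≤ ZM w M 0 - ZM w M (cs 0 (1 / 2)) := by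
  have hZ := H896.Zn_pos h.toWM (0 : V → ℝ)
  have h0 := H896.hasSum_ZM h 0 0
  have h1 := H896.hasSum_ZM h 0 (1 / 2)
  have e0 : (fun x : V => (0 : V → ℝ) x + 0) = 0 := by funext x; simp
  rw [e0] at h0
  have h2 := h0.sub h1
  have h3 := Complex.hasSum_re h2
  have hq : ∀ q : ℤ, Zq w M q 0 = ((om w M q * Zn w M 0 : ℝ) : ℂ) := by
    intro q
    rw [H896.Zq_zero h.toWM]
    unfold H896.om
    rw [div_mul_cancel₀ _ hZ.ne']
  have e1 : ∀ q : ℤ, (H896.ph (-q) 0 * Zq w M q 0 - H896.ph (-q) (1 / 2) * Zq w M q 0).re =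
      (1 - (-1 : ℝ) ^ q) * (om w M q * Zn w M 0) := by
    intro q
    rw [H896.ph_zero_right, ph_halfN, hq]
    have : ((-1 : ℂ) ^ q) = (((-1 : ℝ) ^ q : ℝ) : ℂ) := by push_cast; rfl
    rw [this, ← sub_mul, ← Complex.ofReal_one, ← Complex.ofReal_sub, ← Complex.ofReal_mul,
      Complex.ofReal_re]
  simp only [e1] at h3
  have hnn : ∀ q : ℤ, 0 ≤ (1 - (-1 : ℝ) ^ q) * (om w M q * Zn w M 0) := by
    intro q
    refine mul_nonneg ?_ (mul_nonneg (H896.om_nonneg h.toWM q) hZ.le)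
    rcases Int.even_or_odd q with hq | hq
    · rw [hq.neg_one_zpow]; norm_num
    · rw [hq.neg_one_zpow]; norm_num
  have h4 := sum_le_hasSum ({1, -1} : Finset ℤ) (fun q _ => hnn q) h3
  rw [Finset.sum_pair (by norm_num)] at h4
  have o1 : ((-1 : ℝ) ^ (1 : ℤ)) = -1 := by norm_num
  have o2 : ((-1 : ℝ) ^ (-1 : ℤ)) = -1 := by norm_num
  rw [o1, o2, H896.om_neg h.toWM] at h4
  have e2 : ((ZM w M 0 : ℂ) - (ZM w M (fun x : V => (0 : V → ℝ) x + 1 / 2) : ℂ)).re =
      ZM w M 0 - ZM w M (cs 0 (1 / 2)) := by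
    rw [Complex.sub_re, Complex.ofReal_re, Complex.ofReal_re]
    rfl
  rw [e2] at h4
  linarith

/-- **the self energy of the constant mode is at least four times the charge one activity** -/
theorem four_om_le_Lc (h : WP w M) (hE : EM (wM w M)) (he : Ev (wM w M)) (hK : PK (wM w M)) :
    4 * om w M 1 ≤ Lc w M := by
  have hper : Per w := h.per
  have hZ := H896.Zn_pos h.toWM (0 : V → ℝ)
  have hL0 := H43.Lc_nonneg hper h.sym hE he hK
  have ho0 := H896.om_nonneg h.toWM 1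
  have ho1 := H896.om_le_one h.toWM 1
  by_cases h4 : 4 ≤ Lc w M
  · linarith
  push Not at h4
  have hZ0 : 0 < ZM w M 0 := H37.ZM_pos h.sym hE 0
  have hZh : 0 < ZM w M (cs 0 (1 / 2)) := H37.ZM_pos h.sym hE _
  have h1 := H43.LM_const_le h.sym hE he hK (1 / 2)
  unfold H145.LM at h1
  have h2 := ZM_half h
  -- `Z(0) <= e Zn`
  have h3 := H43.oscZ_Lc hper h.sym hE he hK (0 : V → ℝ) 0 ⟨le_rfl, zero_le_one⟩
  have e0 : cs (0 : V → ℝ) 0 = 0 := by funext x; simp [H145.cs]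
  rw [e0, abs_le] at h3
  have h5 : Real.exp (Lc w M / 4) ≤ Real.exp 1 := Real.exp_le_exp.2 (by linarith)
  have h6 : Real.exp 1 ≤ 2.8 := Real.exp_one_lt_d9.le.trans (by norm_num)
  have h7 : ZM w M 0 ≤ 2.8 * Zn w M 0 := by
    have := mul_le_mul_of_nonneg_right (h5.trans h6) hZ.le
    linarith [h3.2]
  -- logarithm
  have h8 : 1 - ZM w M (cs 0 (1 / 2)) / ZM w M 0 ≤
      Real.log (ZM w M 0) - Real.log (ZM w M (cs 0 (1 / 2))) := by
    rw [← Real.log_div hZ0.ne' hZh.ne']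
    have := Real.one_sub_inv_le_log_of_pos (div_pos hZ0 hZh)
    rwa [inv_div] at this
  have h9 : 4 * om w M 1 / 2.8 ≤ 1 - ZM w M (cs 0 (1 / 2)) / ZM w M 0 := by
    rw [le_sub_iff_add_le, ← le_sub_iff_add_le', div_le_iff₀ hZ0]
    have h10 : 4 * om w M 1 / 2.8 * ZM w M 0 ≤ 4 * om w M 1 / 2.8 * (2.8 * Zn w M 0) :=
      mul_le_mul_of_nonneg_left h7 (by positivity)
    have h11 : 4 * om w M 1 / 2.8 * (2.8 * Zn w M 0) = 4 * om w M 1 * Zn w M 0 := by
      ring
    linarith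
  have h12 : (1 / 2 : ℝ) ^ 2 * Lc w M / 2 = Lc w M / 8 := by ring
  rw [h12] at h1
  have h13 : 4 * om w M 1 / 2.8 ≤ Lc w M / 8 := h9.trans (h8.trans h1)
  rw [div_le_iff₀ (by norm_num)] at h13
  linarith

end gen

section torus

variable {N : ℕ} [NeZero N] {b t : ℝ}

/-- the oscillation constant of the torus -/
theorem Lc_wT (b t : ℝ) : Lc (wT b N) (t • (1 : Matrix (Tor N) (Tor N) ℝ)) =
    t * (N : ℝ) ^ 2 * (1 - t * Ght N b t 0) := by
  have hrow : (t • (1 : Matrix (Tor N) (Tor N) ℝ)).mulVec 1 = t • (1 : Tor N → ℝ) := by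
    rw [smul_mulVec, one_mulVec]
  rw [H43.Lc_row hrow]
  have h1 : qf (Gm (wM (wT b N) (t • (1 : Matrix (Tor N) (Tor N) ℝ)))) 1 =
      (N : ℝ) ^ 2 * Ght N b t 0 := by
    have e1 : ∀ x : Tor N, ∑ y : Tor N, (1 : Tor N → ℝ) x *
        Gm (wM (wT b N) (t • (1 : Matrix (Tor N) (Tor N) ℝ))) x y * (1 : Tor N → ℝ) y =
        Ght N b t 0 := by
      intro x
      rw [H864.Ght_zero_eq]
      simp only [Pi.one_apply, one_mul, mul_one]
      rw [← Equiv.sum_comp (Equiv.subRight x) fun z => Gt N b t z]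
      refine Finset.sum_congr rfl fun y _ => ?_
      exact H864.Gm_wt t x y
    unfold H37.qf
    rw [Finset.sum_congr rfl fun x _ => e1 x, Finset.sum_const, Finset.card_univ,
      Fintype.card_prod, ZMod.card, nsmul_eq_mul]
    push_cast
    ring
  rw [h1, Fintype.card_prod, ZMod.card]
  push_cast
  ring

/-- **the self energy of the constant mode and the charge one activity** -/
theorem om_le_Ght (hb : 0 ≤ b) (ht : 0 < t) :
    4 * om (wT b N) (t • (1 : Matrix (Tor N) (Tor N) ℝ)) 1 ≤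
      t * (N : ℝ) ^ 2 * (1 - t * Ght N b t 0) := by
  rw [← Lc_wT]
  exact four_om_le_Lc (H896.wp_t hb ht) (H789.em_wM_wT hb ht (H789.coer_smul t))
    (H37.ev_wM H789.wT_even _) (H789.pk_wM_wT' hb ht (H789.coer_smul t))

/-- **(B3) for the self energy** -/
theorem Ght_crit {b : ℝ} (hb : 0 < b) (hel : helicity b = 2 / Real.pi) {δ κ : ℝ} (hδ : 0 < δ)
    (hκ : 0 < κ) :
    ∃ (c : ℝ) (N0 : ℕ), 0 < c ∧ ∀ (N : ℕ) [NeZero N], N0 ≤ N → ∀ t : ℝ, κ ≤ t * (N : ℝ) ^ 2 →
      c * (N : ℝ) ^ (-δ) ≤ t * (N : ℝ) ^ 2 * (1 - t * Ght N b t 0) := by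
  obtain ⟨c, N0, hc, h⟩ := om_crit' hb hel hδ hκ
  refine ⟨4 * c, N0, by positivity, fun N _ hN t ht => ?_⟩
  have ht0 : 0 < t := by
    by_contra h'
    push Not at h'
    have : t * (N : ℝ) ^ 2 ≤ 0 := mul_nonpos_of_nonpos_of_nonneg h' (by positivity)
    linarith
  have h1 := om_le_Ght (N := N) hb.le ht0
  have h2 := h N hN t ht
  linarith

end torus

end Vale.Agent.P159.H879
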