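import Vale.Agent.P159.H879.BlkLow
import Vale.Agent.P159.H513.TorG
import Vale.Agent.P159.H963.NeuR

/-!
STARTV (B2), part 4: the pinned torus weight is a product of positive definite factors; lower
bounds of its characteristic function (vortex in a block, smooth fields).
-/

set_option linter.all false

open MeasureTheory Filter Topology Matrix

namespace Vale.Agent.P159.H879

open Vale.Agent.P159 Vale.Agent.P159.H353 Vale.Agent.P159.R2.H254 Vale.Agent.P159.H513
open Vale.Agent.P159.H950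
open Vale.Agent.P159.TM.H129 (ip ip_neg)
open Vale.Agent.P159.T1.H934 Vale.Agent.P159.T1.H731
open Vale.Agent.P159.H37 (qf bf re wM ZM Zn Zq qf_add_mat)
open Vale.Agent.P159.TM.SpecC (Tor wT)
open Vale.Agent.P159.H963 (pin ntr MF GW nM nwt gap_pin ntr_gap ntr_transpose)

section one

/-- the indicator of zero -/
def d0 (n : Unit → ℤ) : ℝ := if n () = 0 then 1 else 0

lemma d0_ne {n : Unit → ℤ} (h : n ≠ 0) : d0 n = 0 := by
  unfold d0
  rw [if_neg]
  intro h'
  exact h (funext fun _ => h')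

lemma dom_d0 : Dom 1 d0 d0 := by
  have hs : Summable fun n => |d0 n| :=
    (hasSum_single (0 : Unit → ℤ) fun n hn => by rw [d0_ne hn, abs_zero]).summable
  refine ⟨hs, hs, fun n => by unfold d0; simp, fun φ => ?_⟩
  have h1 : ft d0 φ = 1 := by
    unfold ft
    rw [tsum_eq_single (0 : Unit → ℤ) fun n hn => by rw [d0_ne hn]; simp]
    unfold d0 ph ip
    simp
  rw [h1]
  simp

end one

section pinned

variable {V : Type} [Fintype V] [DecidableEq V]

lemma qf_diag (d : V → ℝ) (u : V → ℝ) : qf (Matrix.diagonal d) u = ∑ x, d x * u x ^ 2 := by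
  unfold H37.qf
  refine Finset.sum_congr rfl fun x _ => ?_
  rw [Finset.sum_eq_single x]
  · rw [Matrix.diagonal_apply_eq]; ring
  · intro y _ hy
    rw [Matrix.diagonal_apply_ne _ (Ne.symm hy)]; ring
  · intro h; exact absurd (Finset.mem_univ x) h

/-- the pinned Gaussian weight -/
noncomputable def pG (M : Matrix V V ℝ) (m : ℝ) (x₀ : V) : (V → ℤ) → ℝ :=
  pin (fun h => Real.exp (-(qf (ntr M m) (re h) / 2))) x₀

/-- **the pinned Gaussian weight is positive definite** -/
theorem dom_pG [Nonempty V] {M : Matrix V V ℝ} {m : ℝ} (hM : MF M m) (x₀ : V) :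
    Dom 1 (pG M m x₀) (pG M m x₀) := by
  obtain ⟨m0, hm0, hc⟩ := hM.coer
  have hN : (0 : ℝ) < Fintype.card V := Nat.cast_pos.2 Fintype.card_pos
  set c : ℝ := m0 / (2 * (1 + Fintype.card V)) with hcd
  have hc0 : 0 < c := by positivity
  have hgap : ∀ u : V → ℝ, c * ∑ x, (u x - u x₀) ^ 2 ≤ qf (ntr M m) u :=
    gap_pin hm0.le (ntr_gap hM.symm hM.row hc) x₀
  set M' : Matrix V V ℝ := ntr M m +
    Matrix.diagonal (fun x => if x = x₀ then c * Fintype.card V else 0) with hM'
  have hq : ∀ u : V → ℝ, qf M' u = qf (ntr M m) u + c * Fintype.card V * u x₀ ^ 2 := by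
    intro u
    rw [hM', qf_add_mat, qf_diag]
    congr 1
    simp
  have hs : M'ᵀ = M' := by
    rw [hM', transpose_add, ntr_transpose hM.symm, diagonal_transpose]
  have hco : ∀ u : V → ℝ, c / 2 * ∑ x, u x ^ 2 ≤ qf M' u := by
    intro u
    rw [hq]
    have h1 := hgap u
    have h2 : ∑ x, u x ^ 2 ≤ 2 * ∑ x, (u x - u x₀) ^ 2 + 2 * Fintype.card V * u x₀ ^ 2 := by
      calc ∑ x, u x ^ 2 ≤ ∑ x, (2 * (u x - u x₀) ^ 2 + 2 * u x₀ ^ 2) := by
            refine Finset.sum_le_sum fun x _ => ?_
            nlinarith [sq_nonneg ((u x - u x₀) - u x₀)]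
        _ = _ := by
            rw [Finset.sum_add_distrib, ← Finset.mul_sum, Finset.sum_const, Finset.card_univ,
              nsmul_eq_mul]
            ring
    have h3 := mul_le_mul_of_nonneg_left h2 (half_pos hc0).le
    nlinarith
  have h1 := Dom.form hs (half_pos hc0) hco 0
  simp only [sub_zero] at h1
  have h2 := h1.mul (fun (_ : Unit) (x : V) => if x = x₀ then 1 else 0) dom_d0
  have e : (fun h : V → ℤ => Real.exp (-(qf M' (re h) / 2)) *
      d0 (TM.H129.nn (fun (_ : Unit) (x : V) => if x = x₀ then 1 else 0) h)) = pG M m x₀ := by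
    funext h
    have e1 : TM.H129.nn (fun (_ : Unit) (x : V) => if x = x₀ then 1 else 0) h () = h x₀ := by
      unfold Vale.Agent.P159.TM.H129.nn
      simp
    unfold pG H963.pin d0
    rw [e1]
    by_cases h0 : h x₀ = 0
    · rw [if_pos h0, if_pos h0, mul_one, hq]
      have : re h x₀ = 0 := by unfold H37.re; rw [h0]; simp
      rw [this]
      congr 2
      ring
    · rw [if_neg h0, if_neg h0, mul_zero]
  rw [e, one_mul] at h2
  exact h2

lemma dom_cur {E : Type} [Fintype E] {J : E → ℝ} (hJ : ∀ e, 0 ≤ J e) (Γ : AddSubgroup (E → ℤ)) :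
    Dom 1 (gw' J Γ 0) (gw' J Γ 0) := by
  have h1 := Dom.currents hJ Γ 0
  rwa [div_self (SG_pos hJ Γ 0).ne'] at h1

end pinned

section torus

variable {N : ℕ} [NeZero N]

/-- difference operators of all edges of the torus -/
def DT (N : ℕ) [NeZero N] (e : Tor N × Bool) (x : Tor N) : ℤ :=
  if e.2 then (if x = e.1 + (1, 0) then 1 else 0) - (if x = e.1 then 1 else 0)
  else (if x = e.1 then 1 else 0) - (if x = e.1 + (0, 1) then 1 else 0)

/-- the gradient of a height function -/
def gT (h : Tor N → ℤ) (e : Tor N × Bool) : ℤ :=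
  if e.2 then h (e.1 + (1, 0)) - h e.1 else h e.1 - h (e.1 + (0, 1))

lemma nn_DT (h : Tor N → ℤ) (e : Tor N × Bool) : ∑ x, DT N e x * h x = gT h e := by
  unfold DT gT
  cases e.2
  · simp only [Bool.false_eq_true, if_false, sub_mul, ite_mul, one_mul, zero_mul,
      Finset.sum_sub_distrib, Finset.sum_ite_eq', Finset.sum_ite_eq, Finset.mem_univ, if_true]
  · simp only [if_true, sub_mul, ite_mul, one_mul, zero_mul,
      Finset.sum_sub_distrib, Finset.sum_ite_eq', Finset.sum_ite_eq, Finset.mem_univ, if_true]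

lemma wT_gT (b : ℝ) (h : Tor N → ℤ) : wT b N h = ∏ e : Tor N × Bool, wI b (gT h e) := by
  unfold TM.SpecC.wT
  rw [Fintype.prod_prod_type fun e : Tor N × Bool => wI b (gT h e)]
  refine Finset.prod_congr rfl fun x _ => ?_
  rw [Fintype.prod_bool]
  unfold gT
  simp only [if_true, Bool.false_eq_true, if_false]
  congr 1
  rw [← wI_neg]
  congr 1
  ring

/-- the edges of the block at the origin -/
def emb (N l : ℕ) (e : H513.EB l) : Tor N × Bool := (st N l 1 (0, 0) e.1, e.2)

lemma emb_inj {l : ℕ} (hl : l ≤ N) : Function.Injective (emb N l) := by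
  rintro ⟨⟨⟨a, b⟩, hab⟩, t⟩ ⟨⟨⟨a', b'⟩, hab'⟩, t'⟩ h
  have hm := mem_blk.1 hab
  have hm' := mem_blk.1 hab'
  simp only at hm hm'
  have key : ∀ a a' : ℤ, 0 ≤ a → a < l → 0 ≤ a' → a' < l →
      (((((l * 0 : ℕ) : ℤ) + a : ℤ) : ZMod N) = ((((l * 0 : ℕ) : ℤ) + a' : ℤ) : ZMod N)) →
      a = a' := by
    intro a a' h1 h2 h3 h4 h
    rw [ZMod.intCast_eq_intCast_iff] at h
    have h5 := h.dvd
    have hN : (l : ℤ) ≤ N := by exact_mod_cast hl
    obtain ⟨k, hk⟩ := h5
    have h6 : a' - a = N * k := by push_cast at hk; linarith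
    have h7 : |(N : ℤ) * k| < N := by
      rw [← h6, abs_lt]; constructor <;> linarith
    have h8 : k = 0 := by
      by_contra hk0
      have h9 : 1 ≤ |k| := Int.one_le_abs hk0
      rw [abs_mul, Nat.abs_cast] at h7
      nlinarith
    rw [h8, mul_zero] at h6
    linarith
  have h1 := congrArg (fun p : Tor N × Bool => p.1.1) h
  have h2 := congrArg (fun p : Tor N × Bool => p.1.2) h
  have h3 : t = t' := congrArg (fun p : Tor N × Bool => p.2) h
  have e1 := key a a' (by omega) (by omega) (by omega) (by omega) h1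
  have e2 := key b b' (by omega) (by omega) (by omega) (by omega) h2
  subst e1 e2 h3
  rfl

/-- current of the block -/
lemma gT_emb {l : ℕ} (h : Tor N → ℤ) (e : H513.EB l) :
    gT h (emb N l e) = H513.cur (fun c => h (st N l 1 (0, 0) c)) e := by
  unfold gT emb H513.cur
  simp only [st_e1, st_e2]

/-- the edges outside the block -/
abbrev EO (N l : ℕ) : Type := {e : Tor N × Bool // ¬ e ∈ Set.range (emb N l)}

open Classical in
noncomputable instance (l : ℕ) : Fintype (EO N l) := Subtype.fintype _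

open Classical in
/-- product over the edges -/
lemma prod_emb {l : ℕ} (hl : l ≤ N) (f : Tor N × Bool → ℝ) :
    ∏ e, f e = (∏ e : H513.EB l, f (emb N l e)) * ∏ e : EO N l, f e := by
  have h1 : ∏ e : H513.EB l, f (emb N l e) =
      ∏ e : {e : Tor N × Bool // e ∈ Set.range (emb N l)}, f e := by
    have hb : Function.Bijective (fun e : H513.EB l =>
        (⟨emb N l e, ⟨e, rfl⟩⟩ : {e : Tor N × Bool // e ∈ Set.range (emb N l)})) :=
      ⟨fun a b h => emb_inj hl (Subtype.ext_iff.1 h), fun ⟨e, a, ha⟩ => ⟨a, Subtype.ext ha⟩⟩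
    exact Fintype.prod_bijective _ hb _ _ fun e => rfl
  rw [h1]
  have h2 := Fintype.prod_subtype_mul_prod_subtype (fun e => e ∈ Set.range (emb N l)) f
  refine Eq.trans h2.symm (congrArg₂ (· * ·) ?_ ?_)
  · exact @Fintype.prod_equiv _ _ _ (_) (_) _ (Equiv.refl _) _ _ fun _ => rfl
  · exact @Fintype.prod_equiv _ _ _ (_) (_) _ (Equiv.refl _) _ _ fun _ => rfl

end torus

end Vale.Agent.P159.H879
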