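import Vale.Agent.P159.H879.Cut
import Vale.Agent.P159.H879.Pin

/-!
STARTV (B2), part 8: fields on the edges of the torus: circulation, a bounded field with given
circulation, planar fields supported in a block.
-/

set_option linter.all false

open Filter Topology

namespace Vale.Agent.P159.H879

open Vale.Agent.P159
open Vale.Agent.P159.TM.SpecC (Tor wT)
open Vale.Agent.P159.H950 (blk mem_blk hu hv)

variable {N : ℕ} [NeZero N]

/-- circulation on the torus -/
def curlT (Θ : Tor N × Bool → ℝ) (x : Tor N) : ℝ :=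
  (Θ (x - (1, 0), true) - Θ (x, true)) + (Θ (x, false) - Θ (x - (0, 1), false))

lemma curlT_add (Θ Θ' : Tor N × Bool → ℝ) (x : Tor N) :
    curlT (fun e => Θ e + Θ' e) x = curlT Θ x + curlT Θ' x := by
  unfold curlT
  ring

lemma curlT_sub (Θ Θ' : Tor N × Bool → ℝ) (x : Tor N) :
    curlT (fun e => Θ e - Θ' e) x = curlT Θ x - curlT Θ' x := by
  unfold curlT
  ring

lemma sum_shift (a : Tor N) (f : Tor N → ℝ) : ∑ x, f (x - a) = ∑ x, f x :=
  Equiv.sum_comp (Equiv.subRight a) f

/-- summation by parts -/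
lemma sum_gT (Θ : Tor N × Bool → ℝ) (h : Tor N → ℤ) :
    ∑ e, Θ e * (gT h e : ℝ) = ∑ x, curlT Θ x * (h x : ℝ) := by
  rw [Fintype.sum_prod_type]
  have e1 := sum_shift (N := N) (1, 0) fun x => Θ (x, true) * (h (x + (1, 0)) : ℝ)
  have e2 := sum_shift (N := N) (0, 1) fun x => Θ (x, false) * (h (x + (0, 1)) : ℝ)
  simp only [sub_add_cancel] at e1 e2
  have e3 : ∀ x : Tor N, ∑ t : Bool, Θ (x, t) * (gT h (x, t) : ℝ) =
      Θ (x, true) * (h (x + (1, 0)) : ℝ) - Θ (x, true) * h x + (Θ (x, false) * h x -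
        Θ (x, false) * (h (x + (0, 1)) : ℝ)) := by
    intro x
    rw [Fintype.sum_bool]
    unfold gT
    simp only [if_true, Bool.false_eq_true, if_false]
    push_cast
    ring
  rw [Finset.sum_congr rfl fun x _ => e3 x, Finset.sum_add_distrib, Finset.sum_sub_distrib,
    Finset.sum_sub_distrib, ← e1, ← e2, ← Finset.sum_sub_distrib, ← Finset.sum_sub_distrib,
    ← Finset.sum_add_distrib]
  refine Finset.sum_congr rfl fun x _ => ?_
  unfold curlT
  ring

lemma sum_curlT (Θ : Tor N × Bool → ℝ) : ∑ x, curlT Θ x = 0 := by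
  have h := sum_gT Θ fun _ => 1
  have e : ∀ e : Tor N × Bool, gT (fun _ : Tor N => (1 : ℤ)) e = 0 := fun e => by
    unfold gT
    simp
  simp only [e] at h
  simpa using h.symm

/-! ### one dimension -/

lemma val_pred {i : ZMod N} (hi : i.val ≠ 0) : (i - 1).val + 1 = i.val := by
  have h1 : (((i.val - 1 : ℕ)) : ZMod N) = i - 1 := by
    rw [Nat.cast_sub (Nat.one_le_iff_ne_zero.2 hi), ZMod.natCast_zmod_val, Nat.cast_one]
  have h2 : i.val < N := ZMod.val_lt i
  rw [← h1, ZMod.val_natCast_of_lt (by omega)]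
  omega

lemma val_pred_zero {i : ZMod N} (hi : i.val = 0) : (i - 1).val + 1 = N := by
  have hN : 0 < N := Nat.pos_of_ne_zero (NeZero.ne N)
  have h0 : i = 0 := (ZMod.val_eq_zero i).1 hi
  have h1 : (((N - 1 : ℕ)) : ZMod N) = i - 1 := by
    rw [Nat.cast_sub hN, ZMod.natCast_self, Nat.cast_one, h0]
  rw [← h1, ZMod.val_natCast_of_lt (by omega)]
  omega

lemma sum_range_zmod (f : ZMod N → ℝ) : ∑ k ∈ Finset.range N, f (k : ZMod N) = ∑ x, f x := by
  refine Finset.sum_nbij' (fun k => (k : ZMod N)) (fun x => x.val) (fun _ _ => Finset.mem_univ _)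
    (fun x _ => Finset.mem_range.2 (ZMod.val_lt x)) (fun k hk => ?_) (fun x _ => ?_) fun _ _ => rfl
  · exact ZMod.val_natCast_of_lt (Finset.mem_range.1 hk)
  · exact ZMod.natCast_zmod_val x

/-- sums from zero -/
def pS (f : ZMod N → ℝ) (i : ZMod N) : ℝ := ∑ k ∈ Finset.range (i.val + 1), f (k : ZMod N)

lemma pS_sub {f : ZMod N → ℝ} (hf : ∑ x, f x = 0) (i : ZMod N) : pS f i - pS f (i - 1) = f i := by
  unfold pS
  by_cases hi : i.val = 0
  · rw [val_pred_zero hi, sum_range_zmod, hf, hi, zero_add, Finset.sum_range_one, sub_zero,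
      Nat.cast_zero, (ZMod.val_eq_zero i).1 hi]
  · rw [val_pred hi, Finset.sum_range_succ, ZMod.natCast_zmod_val]
    ring

lemma pS_le {f : ZMod N → ℝ} {B : ℝ} (hf : ∀ x, |f x| ≤ B) (i : ZMod N) : |pS f i| ≤ N * B := by
  have hB : 0 ≤ B := (abs_nonneg _).trans (hf 0)
  unfold pS
  refine (Finset.abs_sum_le_sum_abs _ _).trans ?_
  refine (Finset.sum_le_card_nsmul _ _ B fun k _ => hf _).trans ?_
  rw [Finset.card_range, nsmul_eq_mul]
  refine mul_le_mul_of_nonneg_right ?_ hB
  have h2 : i.val < N := ZMod.val_lt i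
  exact_mod_cast h2

/-- **a bounded field with given circulation** -/
theorem exists_flow {c : Tor N → ℝ} (hc : ∑ x, c x = 0) {B : ℝ} (hB : ∀ x, |c x| ≤ B) :
    ∃ ψ : Tor N × Bool → ℝ, (∀ x, curlT ψ x = c x) ∧ ∀ e, |ψ e| ≤ 2 * N * B := by
  have hN : (0 : ℝ) < N := Nat.cast_pos.2 (Nat.pos_of_ne_zero (NeZero.ne N))
  have hB0 : 0 ≤ B := (abs_nonneg _).trans (hB 0)
  set m : ZMod N → ℝ := fun j => (∑ i, c (i, j)) / N with hm
  have hm1 : ∀ j, |m j| ≤ B := by
    intro j
    rw [hm]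
    simp only
    rw [abs_div, abs_of_pos hN, div_le_iff₀ hN]
    refine (Finset.abs_sum_le_sum_abs _ _).trans ?_
    refine (Finset.sum_le_card_nsmul _ _ B fun k _ => hB _).trans (le_of_eq ?_)
    rw [Finset.card_univ, ZMod.card, nsmul_eq_mul, mul_comm]
  have hm2 : ∑ j, m j = 0 := by
    rw [hm]
    simp only
    rw [← Finset.sum_div]
    rw [Fintype.sum_prod_type_right] at hc
    rw [hc, zero_div]
  have hr1 : ∀ j, ∑ i, (c (i, j) - m j) = 0 := by
    intro j
    rw [Finset.sum_sub_distrib, Finset.sum_const, Finset.card_univ, ZMod.card, nsmul_eq_mul, hm]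
    field_simp
    ring
  have hr2 : ∀ j i, |c (i, j) - m j| ≤ 2 * B := by
    intro j i
    have h1 := abs_le.1 (hB (i, j))
    have h2 := abs_le.1 (hm1 j)
    rw [abs_le]
    constructor <;> linarith [h1.1, h1.2, h2.1, h2.2]
  refine ⟨fun e => if e.2 then -pS (fun i => c (i, e.1.2) - m e.1.2) e.1.1 else pS m e.1.2,
    fun x => ?_, fun e => ?_⟩
  · obtain ⟨i, j⟩ := x
    unfold curlT
    simp only [if_true, Bool.false_eq_true, if_false, Prod.fst_sub, Prod.snd_sub, sub_zero]
    have h1 := pS_sub (hr1 j) i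
    have h2 := pS_sub hm2 j
    linarith
  · obtain ⟨⟨i, j⟩, t⟩ := e
    cases t
    · simp only [Bool.false_eq_true, if_false]
      refine (pS_le hm1 j).trans ?_
      nlinarith
    · simp only [if_true]
      rw [abs_neg]
      refine (pS_le (hr2 j) i).trans (le_of_eq ?_)
      ring

/-! ### planar fields -/

/-- the representative of a site of the torus -/
def rep (x : Tor N) : ℤ × ℤ := ((x.1.val : ℤ), (x.2.val : ℤ))

/-- planar fields supported inside the torus -/
lemma curlT_plan {P : ℤ × ℤ → Bool → ℝ}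
    (hP : ∀ c t, P c t ≠ 0 → (0 ≤ c.1 ∧ c.1 + 1 < N) ∧ (0 ≤ c.2 ∧ c.2 + 1 < N)) (x : Tor N) :
    curlT (fun e => P (rep e.1) e.2) x = curl P (rep x) := by
  have h1 : P (rep (x - (1, 0))) true = P (rep x - (1, 0)) true := by
    by_cases hx : x.1.val = 0
    · have e1 : P (rep (x - (1, 0))) true = 0 := by
        by_contra h
        have := (hP _ _ h).1.2
        have h2 := val_pred_zero hx
        have h3 : (rep (x - (1, 0))).1 = ((x.1 - 1).val : ℤ) := rfl
        rw [h3] at this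
        omega
      have e2 : P (rep x - (1, 0)) true = 0 := by
        by_contra h
        have := (hP _ _ h).1.1
        have h3 : (rep x - (1, 0)).1 = (x.1.val : ℤ) - 1 := rfl
        rw [h3, hx] at this
        omega
      rw [e1, e2]
    · have e1 : rep (x - (1, 0)) = rep x - (1, 0) := by
        have h2 := val_pred hx
        have h3 : (rep (x - (1, 0))) = (((x.1 - 1).val : ℤ), ((x.2 - 0).val : ℤ)) := rfl
        have h4 : rep x - (1, 0) = ((x.1.val : ℤ) - 1, (x.2.val : ℤ) - 0) := rfl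
        rw [h3, h4, sub_zero, sub_zero, ← h2]
        push_cast
        rw [add_sub_cancel_right]
      rw [e1]
  have h2 : P (rep (x - (0, 1))) false = P (rep x - (0, 1)) false := by
    by_cases hx : x.2.val = 0
    · have e1 : P (rep (x - (0, 1))) false = 0 := by
        by_contra h
        have := (hP _ _ h).2.2
        have h2 := val_pred_zero hx
        have h3 : (rep (x - (0, 1))).2 = ((x.2 - 1).val : ℤ) := rfl
        rw [h3] at this
        omega
      have e2 : P (rep x - (0, 1)) false = 0 := by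
        by_contra h
        have := (hP _ _ h).2.1
        have h3 : (rep x - (0, 1)).2 = (x.2.val : ℤ) - 1 := rfl
        rw [h3, hx] at this
        omega
      rw [e1, e2]
    · have e1 : rep (x - (0, 1)) = rep x - (0, 1) := by
        have h2 := val_pred hx
        have h3 : (rep (x - (0, 1))) = (((x.1 - 0).val : ℤ), ((x.2 - 1).val : ℤ)) := rfl
        have h4 : rep x - (0, 1) = ((x.1.val : ℤ) - 0, (x.2.val : ℤ) - 1) := rfl
        rw [h3, h4, sub_zero, sub_zero, ← h2]
        push_cast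
        rw [add_sub_cancel_right]
      rw [e1]
  unfold curlT curl
  simp only
  rw [h1, h2]

/-- the increments of the angle on the inner edges of the block -/
noncomputable def VV (l : ℕ) (c : ℤ × ℤ) (t : Bool) : ℝ :=
  if ((0 ≤ c.1 ∧ c.1 < l) ∧ (0 ≤ c.2 ∧ c.2 < l)) ∧ ¬ (if t then c.1 + 1 = l else c.2 + 1 = l) then
    UU l c t else 0

lemma PV_le {l : ℕ} (hl : 16 ≤ l) (c : ℤ × ℤ) (t : Bool) : |PP l c t - VV l c t| ≤ 26 / l := by
  unfold VV
  by_cases h : ((0 ≤ c.1 ∧ c.1 < l) ∧ (0 ≤ c.2 ∧ c.2 < l)) ∧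
      ¬ (if t then c.1 + 1 = (l : ℤ) else c.2 + 1 = l)
  · rw [if_pos h]
    exact PP_sub hl c t
  · have h0 : PP l c t = 0 := by
      by_contra h1
      obtain ⟨⟨a1, a2⟩, a3, a4⟩ := PP_supp hl h1
      apply h
      refine ⟨⟨⟨a1, by omega⟩, a3, by omega⟩, ?_⟩
      cases t
      · simp only [Bool.false_eq_true, if_false]; omega
      · simp only [if_true]; omega
    rw [if_neg h, h0, sub_zero, abs_zero]
    positivity

lemma vtx_eq {l : ℕ} (e : H513.EB l) : vtx l e = VV l (e.1 : ℤ × ℤ) e.2 := by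
  obtain ⟨⟨c, hc⟩, t⟩ := e
  have hm := mem_blk.1 hc
  simp only at hm
  have hb : bdE (l := l) ((⟨c, hc⟩ : ↥(blk (0, 0) l)), t) ↔
      (if t then c.1 + 1 = (l : ℤ) else c.2 + 1 = l) := Iff.rfl
  have e0 : vtx l ((⟨c, hc⟩ : ↥(blk (0, 0) l)), t) =
      if (if t then c.1 + 1 = (l : ℤ) else c.2 + 1 = l) then 0 else
        UJ.inc l 0 (hu c (t, true)) (hv c (t, true)) := by
    unfold vtx
    by_cases h : (if t then c.1 + 1 = (l : ℤ) else c.2 + 1 = l)
    · rw [if_pos (hb.2 h), if_pos h]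
    · rw [if_neg fun h' => h (hb.1 h'), if_neg h]
      rfl
  have e1 : VV l ((((⟨c, hc⟩ : ↥(blk (0, 0) l)), t) : H513.EB l).1 : ℤ × ℤ)
      (((⟨c, hc⟩ : ↥(blk (0, 0) l)), t) : H513.EB l).2 = VV l c t := rfl
  have e2 : UJ.inc l 0 (hu c (t, true)) (hv c (t, true)) = UU l c t := by
    unfold UU
    cases t
    · simp only [Bool.false_eq_true, if_false]
      congr 1
      ext <;> simp [H950.hu, H950.hv]
    · simp only [if_true]
      congr 1
      ext <;> simp [H950.hu, H950.hv]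
  rw [e0, e1, e2]
  unfold VV
  by_cases h : (if t then c.1 + 1 = (l : ℤ) else c.2 + 1 = l)
  · rw [if_pos h, if_neg fun h' => h'.2 h]
  · rw [if_neg h, if_pos ⟨⟨⟨by omega, by omega⟩, by omega, by omega⟩, h⟩]

lemma rep_st {l : ℕ} (hl : l ≤ N) {c : ℤ × ℤ} (hc : c ∈ blk (0, 0) l) :
    rep (H513.st N l 1 (0, 0) c) = c := by
  have hm := mem_blk.1 hc
  simp only at hm
  have key : ∀ a : ℤ, 0 ≤ a → a < l →
      (((((((l * 0 : ℕ) : ℤ) + a : ℤ)) : ZMod N)).val : ℤ) = a := by
    intro a h1 h2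
    lift a to ℕ using h1
    have h3 : a < l := by exact_mod_cast h2
    have h4 : ((((l * 0 : ℕ) : ℤ) + (a : ℤ) : ℤ) : ZMod N) = ((a : ℕ) : ZMod N) := by
      push_cast
      ring
    rw [h4, ZMod.val_natCast_of_lt (by omega)]
  exact Prod.ext (key c.1 (by omega) (by omega)) (key c.2 (by omega) (by omega))

end Vale.Agent.P159.H879
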