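import Vale.Agent.P159.H879.Pin2
import Vale.Agent.P159.H879.TorF

/-!
STARTV (B2), part 9: **the activity of the charge one sector of the torus is at least the square of
the vortex ratio of a block**.
-/

set_option linter.all false

open MeasureTheory Filter Topology Matrix

namespace Vale.Agent.P159.H879

open Vale.Agent.P159 Vale.Agent.P159.H513
open Vale.Agent.P159.H950 (blk mem_blk)
open Vale.Agent.P159.TM.H129 (ip)
open Vale.Agent.P159.TM.H104 (EM)
open Vale.Agent.P159.H37 (qf bf re wM ZM Zn Zq)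
open Vale.Agent.P159.TM.SpecC (Tor wT)
open Vale.Agent.P159.H963 (pin ntr MF GW nM nwt mf_smul em_nwt ev_nwt gw_wT eq2)
open Vale.Agent.P159.H896 (om WM)

variable {N : ℕ} [NeZero N]

lemma rep_inj : Function.Injective (rep (N := N)) := by
  intro x y h
  have h1 := congrArg Prod.fst h
  have h2 := congrArg Prod.snd h
  simp only [rep, Nat.cast_inj] at h1 h2
  exact Prod.ext (ZMod.val_injective N h1) (ZMod.val_injective N h2)

lemma cen_mem {l : ℕ} (hl : 16 ≤ l) : cen l ∈ blk (0, 0) l := by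
  rw [mem_blk]
  unfold cen
  simp only
  omega

lemma sum_cen {l : ℕ} (hl : 16 ≤ l) (hN : l ≤ N) (f : Tor N → ℝ) (a : ℝ) :
    ∑ x, (if rep x = cen l then a else 0) * f x = a * f (st N l 1 (0, 0) (cen l)) := by
  rw [Finset.sum_eq_single (st N l 1 (0, 0) (cen l))]
  · rw [if_pos (rep_st hN (cen_mem hl))]
  · intro x _ hx
    rw [if_neg, zero_mul]
    intro h
    apply hx
    apply rep_inj
    rw [h, rep_st hN (cen_mem hl)]
  · intro h
    exact absurd (Finset.mem_univ _) h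

/-- **the field of a vortex in a uniform background** -/
theorem exists_field {l : ℕ} (hl : 16 ≤ l) (hN : l ≤ N) :
    ∃ ψ : Tor N × Bool → ℝ,
      (∀ x, curlT (fun e => ψ e + VV l (rep e.1) e.2) x =
        (if rep x = cen l then 2 * Real.pi else 0) - 2 * Real.pi / (N : ℝ) ^ 2) ∧
      ∀ e, |ψ e| ≤ 26 / l + 2 * N * (544 / (l : ℝ) ^ 2 + 2 * Real.pi / (N : ℝ) ^ 2) := by
  have hN0 : (0 : ℝ) < N := Nat.cast_pos.2 (Nat.pos_of_ne_zero (NeZero.ne N))
  have hpi := Real.pi_pos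
  set c : Tor N → ℝ := fun x => -(curl (PP l) (rep x) - (if rep x = cen l then 2 * Real.pi else 0)) -
    2 * Real.pi / (N : ℝ) ^ 2 with hc
  have hsup : ∀ (c : ℤ × ℤ) (t : Bool), PP l c t ≠ 0 →
      (0 ≤ c.1 ∧ c.1 + 1 < N) ∧ (0 ≤ c.2 ∧ c.2 + 1 < N) := by
    intro c t h
    obtain ⟨⟨a1, a2⟩, a3, a4⟩ := PP_supp hl h
    exact ⟨⟨a1, by omega⟩, a3, by omega⟩
  have hcur := fun x : Tor N => curlT_plan hsup x
  have h1 : ∑ x, c x = 0 := by
    rw [hc]
    have e1 : ∑ x : Tor N, curl (PP l) (rep x) = 0 := by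
      rw [← Finset.sum_congr rfl fun x _ => hcur x]
      exact sum_curlT _
    have e2 : ∑ x : Tor N, (if rep x = cen l then 2 * Real.pi else 0) = 2 * Real.pi := by
      have := sum_cen hl hN (fun _ => 1) (2 * Real.pi)
      simpa using this
    rw [Finset.sum_sub_distrib, Finset.sum_neg_distrib, Finset.sum_sub_distrib, e1, e2,
      Finset.sum_const, Finset.card_univ, Fintype.card_prod, ZMod.card, nsmul_eq_mul]
    push_cast
    field_simp
    ring
  have h2 : ∀ x, |c x| ≤ 544 / (l : ℝ) ^ 2 + 2 * Real.pi / (N : ℝ) ^ 2 := by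
    intro x
    have h3 := curl_PP hl (rep x)
    have h4 : 0 ≤ 2 * Real.pi / (N : ℝ) ^ 2 := by positivity
    rw [hc]
    simp only
    rw [abs_le] at h3 ⊢
    constructor <;> linarith [h3.1, h3.2]
  obtain ⟨ψ', hψ, hb⟩ := exists_flow h1 h2
  refine ⟨fun e => ψ' e + (PP l (rep e.1) e.2 - VV l (rep e.1) e.2), fun x => ?_, fun e => ?_⟩
  · have e1 : (fun e : Tor N × Bool => ψ' e + (PP l (rep e.1) e.2 - VV l (rep e.1) e.2) +
        VV l (rep e.1) e.2) = fun e => ψ' e + PP l (rep e.1) e.2 := by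
      funext e; ring
    rw [e1, curlT_add ψ' (fun e => PP l (rep e.1) e.2), hψ, hcur x, hc]
    ring
  · have h3 := hb e
    have h4 := PV_le hl (rep e.1) e.2
    refine (abs_add_le _ _).trans ?_
    linarith

/-- the linear form of a circulation -/
lemma ip_curl (Θ : Tor N × Bool → ℝ) (h : Tor N → ℤ) :
    ip (curlT Θ) h = ∑ e, Θ e * (gT h e : ℝ) := by
  rw [sum_gT]
  rfl

/-- the twist of the block as a field on the torus -/
lemma sum_vtx {l : ℕ} (hN : l ≤ N) (h : Tor N → ℤ) :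
    ∑ e : H513.EB l, vtx l e * (gT h (emb N l e) : ℝ) =
      ∑ e : Tor N × Bool, VV l (rep e.1) e.2 * (gT h e : ℝ) := by
  refine Fintype.sum_of_injective (emb N l) (emb_inj hN) _ _ (fun e he => ?_) fun e => ?_
  · have h0 : VV l (rep e.1) e.2 = 0 := by
      unfold VV
      rw [if_neg]
      rintro ⟨⟨⟨a1, a2⟩, a3, a4⟩, a5⟩
      apply he
      have hm : rep e.1 ∈ blk (0, 0) l := by
        rw [mem_blk]
        simp only
        omega
      refine ⟨(⟨rep e.1, hm⟩, e.2), ?_⟩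
      unfold emb
      refine Prod.ext ?_ rfl
      apply rep_inj
      exact rep_st hN hm
    rw [h0, zero_mul]
  · rw [vtx_eq]
    congr 2
    unfold emb
    simp only
    rw [rep_st hN e.1.2]

/-- the linear form of the field of a vortex in a uniform background -/
lemma ip_total {l : ℕ} (hl : 16 ≤ l) (hN : l ≤ N) (h : Tor N → ℤ) :
    ip (fun x : Tor N => (if rep x = cen l then 2 * Real.pi else 0) -
      2 * Real.pi / (N : ℝ) ^ 2) h =
      (h (st N l 1 (0, 0) (cen l)) : ℝ) * (2 * Real.pi) - 2 * Real.pi * H963.mh h := by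
  have hN0 : (0 : ℝ) < N := Nat.cast_pos.2 (Nat.pos_of_ne_zero (NeZero.ne N))
  have e2 := sum_cen hl hN (fun x => (h x : ℝ)) (2 * Real.pi)
  have e3 : ip (fun x : Tor N => (if rep x = cen l then 2 * Real.pi else 0) -
    2 * Real.pi / (N : ℝ) ^ 2) h = ∑ x, ((if rep x = cen l then 2 * Real.pi else 0) * (h x : ℝ) -
      2 * Real.pi / (N : ℝ) ^ 2 * (h x : ℝ)) := by
    unfold Vale.Agent.P159.TM.H129.ip
    exact Finset.sum_congr rfl fun x _ => by ring
  rw [e3, Finset.sum_sub_distrib, e2, ← Finset.mul_sum]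
  unfold H963.mh
  rw [Fintype.card_prod, ZMod.card]
  push_cast
  field_simp

/-- the bound of the field -/
lemma field_le {l : ℕ} (hl0 : (0 : ℝ) < l) {A : ℝ} (hA1 : 1 ≤ A) (hA : (N : ℝ) ≤ A * l) :
    26 / (l : ℝ) + 2 * N * (544 / (l : ℝ) ^ 2 + 2 * Real.pi / (N : ℝ) ^ 2) ≤ 1150 * A ^ 2 / N := by
  have hN0 : (0 : ℝ) < N := Nat.cast_pos.2 (Nat.pos_of_ne_zero (NeZero.ne N))
  have hpi : Real.pi ≤ 3.15 := Real.pi_lt_d2.le
  have hpi0 := Real.pi_pos
  have i1 : 1 / (l : ℝ) ≤ A / N := by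
    rw [div_le_div_iff₀ hl0 hN0]; linarith
  have i2 : 1 / (l : ℝ) ^ 2 ≤ A ^ 2 / (N : ℝ) ^ 2 := by
    rw [← div_pow]
    calc 1 / (l : ℝ) ^ 2 = (1 / l) ^ 2 := by rw [div_pow, one_pow]
      _ ≤ (A / N) ^ 2 := pow_le_pow_left₀ (by positivity) i1 2
  have i3 : 26 / (l : ℝ) = 26 * (1 / l) := by ring
  have i4 : 544 / (l : ℝ) ^ 2 = 544 * (1 / (l : ℝ) ^ 2) := by ring
  rw [i3, i4]
  have i5 : A ≤ A ^ 2 := by nlinarith
  have i6 : (1 : ℝ) ≤ A ^ 2 := by nlinarith
  have i7 : 26 * (1 / (l : ℝ)) ≤ 26 * A ^ 2 / N := by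
    calc 26 * (1 / (l : ℝ)) ≤ 26 * (A / N) := by linarith
      _ = 26 * A / N := by ring
      _ ≤ 26 * A ^ 2 / N := by
        refine div_le_div_of_nonneg_right ?_ hN0.le
        linarith
  have i8 : 2 * N * (544 * (1 / (l : ℝ) ^ 2) + 2 * Real.pi / (N : ℝ) ^ 2) ≤
      (1088 * A ^ 2 + 4 * Real.pi) / N := by
    calc 2 * N * (544 * (1 / (l : ℝ) ^ 2) + 2 * Real.pi / (N : ℝ) ^ 2) ≤
        2 * N * (544 * (A ^ 2 / (N : ℝ) ^ 2) + 2 * Real.pi / (N : ℝ) ^ 2) := by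
          refine mul_le_mul_of_nonneg_left ?_ (by positivity)
          linarith
      _ = (1088 * A ^ 2 + 4 * Real.pi) / N := by field_simp; ring
  have i9 : (1088 * A ^ 2 + 4 * Real.pi) / N ≤ 1101 * A ^ 2 / N := by
    refine div_le_div_of_nonneg_right ?_ hN0.le
    linarith
  calc 26 * (1 / (l : ℝ)) + 2 * N * (544 * (1 / (l : ℝ) ^ 2) + 2 * Real.pi / (N : ℝ) ^ 2)
      ≤ 26 * A ^ 2 / N + 1101 * A ^ 2 / N := by linarith
    _ = 1127 * A ^ 2 / N := by ring
    _ ≤ _ := by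
      refine div_le_div_of_nonneg_right ?_ hN0.le
      linarith

/-- the energy of a small field -/
lemma energy_small {b : ℝ} (hb : 0 ≤ b) {A : ℝ} {ψ : Tor N × Bool → ℝ}
    (hbd : ∀ e, |ψ e| ≤ 1150 * A ^ 2 / N) :
    ∑ e, b * (1 - Real.cos (ψ e)) ≤ b / 2 * (3000000 * A ^ 4) := by
  have hN0 : (0 : ℝ) < N := Nat.cast_pos.2 (Nat.pos_of_ne_zero (NeZero.ne N))
  have hone : ∀ e, b * (1 - Real.cos (ψ e)) ≤ b / 2 * (1150 * A ^ 2 / N) ^ 2 := by
    intro e
    have j1 := Real.one_sub_sq_div_two_le_cos (x := ψ e)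
    have j2 : ψ e ^ 2 ≤ (1150 * A ^ 2 / N) ^ 2 :=
      sq_le_sq' (abs_le.1 (hbd e)).1 (abs_le.1 (hbd e)).2
    have j3 : b * (1 - Real.cos (ψ e)) ≤ b * (ψ e ^ 2 / 2) :=
      mul_le_mul_of_nonneg_left (by linarith) hb
    have j4 : b * (ψ e ^ 2 / 2) ≤ b * ((1150 * A ^ 2 / N) ^ 2 / 2) :=
      mul_le_mul_of_nonneg_left (by linarith) hb
    linarith
  refine (Finset.sum_le_card_nsmul _ _ _ fun e _ => hone e).trans ?_
  rw [Finset.card_univ, Fintype.card_prod, Fintype.card_prod, ZMod.card, Fintype.card_bool,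
    nsmul_eq_mul]
  push_cast
  have k1 : (N : ℝ) * N * 2 * (b / 2 * (1150 * A ^ 2 / N) ^ 2) = b / 2 * (2645000 * A ^ 4) := by
    field_simp
    ring
  rw [k1]
  refine mul_le_mul_of_nonneg_left ?_ (by positivity)
  have : 0 ≤ A ^ 4 := by positivity
  linarith

/-- conclusion from the Ginibre inequality -/
lemma gin_conclude {y ε Z R1 R2 R3 R4 : ℝ} (hy : 0 ≤ y) (hε : 0 < ε) (hZ : 0 < Z)
    (r1 : y * Z ≤ R1) (r2 : ε * Z ≤ R2) (r4 : R4 ≤ Z) (r5 : 0 ≤ R3)
    (h : (R1 * R2) ^ 2 ≤ Z ^ 2 * (R3 * R4)) : y ^ 2 * ε ^ 2 * Z ≤ R3 := by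
  have k1 : (y * Z) * (ε * Z) ≤ R1 * R2 :=
    mul_le_mul r1 r2 (by positivity) ((mul_nonneg hy hZ.le).trans r1)
  have k2 := pow_le_pow_left₀ (by positivity) k1 2
  have k4 : Z ^ 2 * (R3 * R4) ≤ Z ^ 2 * (R3 * Z) :=
    mul_le_mul_of_nonneg_left (mul_le_mul_of_nonneg_left r4 r5) (by positivity)
  have k5 := (k2.trans h).trans k4
  have k7 : (0 : ℝ) < Z ^ 3 := by positivity
  refine le_of_mul_le_mul_left ?_ k7
  calc Z ^ 3 * (y ^ 2 * ε ^ 2 * Z) = (y * Z * (ε * Z)) ^ 2 := by ring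
    _ ≤ _ := k5
    _ = _ := by ring

/-- **lower bound of the characteristic function of the mean height** -/
theorem mean_low {b t : ℝ} (hb : 0 ≤ b) (ht : 0 < t) {l : ℕ} (hl : 16 ≤ l) (hN : l ≤ N) {A : ℝ}
    (hA : (N : ℝ) ≤ A * l) (x₀ : Tor N) :
    UJ.yy b l ^ 2 * Real.exp (-(b * (3000000 * A ^ 4))) * ∑' h, nwt N b t x₀ h ≤
      ∑' h, nwt N b t x₀ h * Real.cos (2 * Real.pi * H963.mh h) := by
  have hN0 : (0 : ℝ) < N := Nat.cast_pos.2 (Nat.pos_of_ne_zero (NeZero.ne N))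
  have hl0 : (0 : ℝ) < l := by exact_mod_cast (by omega : 0 < l)
  have hlN : (l : ℝ) ≤ N := by exact_mod_cast hN
  have hA1 : 1 ≤ A := by
    by_contra h
    push Not at h
    nlinarith
  obtain ⟨ψ, hcurl, hψ⟩ := exists_field hl hN
  have hE : EM (nwt N b t x₀) := em_nwt hb ht x₀
  have hev : ∀ h, nwt N b t x₀ (-h) = nwt N b t x₀ h := ev_nwt hb t x₀
  have habs := em_abs hE
  have hG := gin hE hev (dg_nwt hb ht x₀) (curlT fun e => VV l (rep e.1) e.2) (curlT ψ)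
  have hZ : 0 < ∑' h, nwt N b t x₀ h := by
    have := TM.H104.T_one_pos hE 0
    unfold TM.H104.T at this
    simpa [TM.H104.li] using this
  have hre : ∀ g : Tor N → ℝ, (ft (nwt N b t x₀) g).re =
      ∑' h, nwt N b t x₀ h * Real.cos (ip g h) := fun g => ft_re habs g
  have r0 : (ft (nwt N b t x₀) 0).re = ∑' h, nwt N b t x₀ h := by
    rw [ft_zero, Complex.ofReal_re]
  have r1 : UJ.yy b l * ∑' h, nwt N b t x₀ h ≤
      (ft (nwt N b t x₀) (curlT fun e => VV l (rep e.1) e.2)).re := by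
    rw [hre]
    simp only [ip_curl]
    have := cf_blk hb ht hN x₀
    simp only [sum_vtx hN] at this
    exact this
  have r2 : Real.exp (-∑ e, b * (1 - Real.cos (ψ e))) * ∑' h, nwt N b t x₀ h ≤
      (ft (nwt N b t x₀) (curlT ψ)).re := by
    rw [hre]
    simp only [ip_curl]
    exact cf_free hb ht x₀ ψ
  have hadd : (curlT fun e => VV l (rep e.1) e.2) + curlT ψ =
      fun x : Tor N => (if rep x = cen l then 2 * Real.pi else 0) - 2 * Real.pi / (N : ℝ) ^ 2 := by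
    funext x
    rw [Pi.add_apply, add_comm, ← curlT_add, ← hcurl x]
  have r3 : (ft (nwt N b t x₀) ((curlT fun e => VV l (rep e.1) e.2) + curlT ψ)).re =
      ∑' h, nwt N b t x₀ h * Real.cos (2 * Real.pi * H963.mh h) := by
    rw [hre, hadd]
    refine tsum_congr fun h => ?_
    rw [ip_total hl hN, ← Real.cos_neg, neg_sub, Real.cos_sub_int_mul_two_pi]
  have r4 : (ft (nwt N b t x₀) ((curlT fun e => VV l (rep e.1) e.2) - curlT ψ)).re ≤
      ∑' h, nwt N b t x₀ h := by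
    refine (Complex.re_le_norm _).trans ((ft_norm_le habs _).trans (le_of_eq ?_))
    exact tsum_congr fun h => abs_of_nonneg (hE.nn h)
  have r5 : 0 ≤ (ft (nwt N b t x₀) ((curlT fun e => VV l (rep e.1) e.2) + curlT ψ)).re := by
    have := (dom_nwt hb ht x₀).le ((curlT fun e => VV l (rep e.1) e.2) + curlT ψ)
    rw [one_mul] at this
    exact (norm_nonneg _).trans this
  have hen : ∑ e, b * (1 - Real.cos (ψ e)) ≤ b / 2 * (3000000 * A ^ 4) :=
    energy_small hb fun e => (hψ e).trans (field_le hl0 hA1 hA)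
  have hy0 : 0 ≤ UJ.yy b l := (Real.exp_pos _).le.trans (UJ.H664.yy_ge hb l)
  have r2' : Real.exp (-(b / 2 * (3000000 * A ^ 4))) * ∑' h, nwt N b t x₀ h ≤
      (ft (nwt N b t x₀) (curlT ψ)).re :=
    (mul_le_mul_of_nonneg_right (Real.exp_le_exp.2 (neg_le_neg hen)) hZ.le).trans r2
  rw [r0] at hG
  have hfin := gin_conclude hy0 (Real.exp_pos (-(b / 2 * (3000000 * A ^ 4)))) hZ r1 r2' r4 r5 hG
  rw [r3] at hfin
  have k6 : Real.exp (-(b / 2 * (3000000 * A ^ 4))) ^ 2 =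
      Real.exp (-(b * (3000000 * A ^ 4))) := by
    rw [← Real.exp_nat_mul]
    congr 1
    push_cast
    ring
  rw [k6] at hfin
  exact hfin

/-- **(B2)** the activity of the charge one sector -/
theorem om_low {b t : ℝ} (hb : 0 ≤ b) (ht : 0 < t) {l : ℕ} (hl : 16 ≤ l) (hN : l ≤ N) {A : ℝ}
    (hA : (N : ℝ) ≤ A * l) :
    Real.exp (-(2 * Real.pi ^ 2 / (t * (N : ℝ) ^ 2))) *
      (UJ.yy b l ^ 2 * Real.exp (-(b * (3000000 * A ^ 4)))) ≤
      om (wT b N) (t • (1 : Matrix (Tor N) (Tor N) ℝ)) 1 := by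
  have hW : WM (wT b N) (t • (1 : Matrix (Tor N) (Tor N) ℝ)) := H896.wm_t hb ht
  have h1 := (gw_wT hb).om_eq (mf_smul (N := N) ht) hW (0 : Tor N) 1
  have h2 := mean_low hb ht hl hN hA (0 : Tor N)
  have hE : EM (nwt N b t 0) := em_nwt hb ht 0
  have hZ : 0 < ∑' h, nwt N b t (0 : Tor N) h := by
    have := TM.H104.T_one_pos hE 0
    unfold TM.H104.T at this
    simpa [TM.H104.li] using this
  have h3 : TM.H104.Ex (nM (wT b N) (t • (1 : Matrix (Tor N) (Tor N) ℝ)) t 0) 0 (H963.cq 1 0) =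
      (∑' h, nwt N b t (0 : Tor N) h * Real.cos (2 * Real.pi * H963.mh h)) /
        ∑' h, nwt N b t (0 : Tor N) h := by
    unfold TM.H104.Ex TM.H104.T
    congr 1
    · refine tsum_congr fun h => ?_
      unfold H963.cq TM.H104.li
      simp only [Pi.zero_apply, zero_mul, Finset.sum_const_zero, Real.exp_zero, mul_one,
        Int.cast_one, sub_zero]
      rw [mul_comm]
      rfl
    · refine tsum_congr fun h => ?_
      unfold TM.H104.li
      simp only [Pi.zero_apply, zero_mul, Finset.sum_const_zero, Real.exp_zero, mul_one, one_mul]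
      rfl
  have h4 : eq2 (Tor N) t 1 = Real.exp (-(2 * Real.pi ^ 2 / (t * (N : ℝ) ^ 2))) := by
    unfold H963.eq2
    rw [Fintype.card_prod, ZMod.card]
    congr 2
    push_cast
    ring
  rw [h1, h3, h4]
  refine mul_le_mul_of_nonneg_left ?_ (Real.exp_pos _).le
  rw [le_div_iff₀ hZ]
  exact h2

end Vale.Agent.P159.H879
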