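import Vale.Agent.P159.H879.YC
import Vale.Agent.P159.H879.Act
import Vale.Agent.P159.H177.Exp
import Vale.Agent.P159.H896.Four
import Vale.Agent.P159.H43.Osc

/-!
STARTV (B3): at a point with helicity `2 / π` (the critical point) the activity of the charge one
sector and the self energy of the massive torus model decay slower than every power.
-/

set_option linter.all false

open MeasureTheory Filter Topology Matrix

namespace Vale.Agent.P159.H879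

open Vale.Agent.P159 Vale.Agent.P159.H513
open Vale.Agent.P159.TM.H104 (EM)
open Vale.Agent.P159.H37 (qf bf re wM ZM Zn Zq Gm PK Ev)
open Vale.Agent.P159.TM.SpecC (Tor wT)
open Vale.Agent.P159.H896 (om WM WP Om)
open Vale.Agent.P159.H43 (Lc)

/-! ### the charge one activity -/

/-- **(B3)** every mass: the activity of charge one decays slower than every power -/
theorem om_crit {b : ℝ} (hb : 0 < b) (hel : helicity b = 2 / Real.pi) {δ : ℝ} (hδ : 0 < δ) :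
    ∃ (c : ℝ) (N0 : ℕ), 0 < c ∧ ∀ (N : ℕ) [NeZero N], N0 ≤ N → ∀ t : ℝ, 0 < t →
      c * (N : ℝ) ^ (-δ) * Real.exp (-(2 * Real.pi ^ 2 / (t * (N : ℝ) ^ 2))) ≤
        om (wT b N) (t • (1 : Matrix (Tor N) (Tor N) ℝ)) 1 := by
  have hpi := Real.pi_pos
  obtain ⟨c, X0, hc, hX⟩ := block_low hb (fun l hl => by
    rw [← hel]; exact H177.helicity_le hb.le hl) (fun ε hε => by
    exact H177.exists_stiff_lt (by rw [hel]; linarith)) (half_pos hδ)
  refine ⟨c ^ 2 * Real.exp (-(b * (3000000 * 2 ^ 4))), max X0 32, by positivity,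
    fun N _ hN t ht => ?_⟩
  obtain ⟨l, -, h2, h3, h4⟩ := hX N ((le_max_left _ _).trans hN)
  have h32 : 32 ≤ N := (le_max_right _ _).trans hN
  have hN0 : (0 : ℝ) < N := by exact_mod_cast (by omega : 0 < N)
  have h5 := om_low (N := N) hb.le ht (l := l) (by omega) h3 (A := 2) (by exact_mod_cast h2)
  refine le_trans ?_ h5
  have h6 : (c * (N : ℝ) ^ (-(δ / 2))) ^ 2 ≤ UJ.yy b l ^ 2 :=
    pow_le_pow_left₀ (by positivity) h4 2
  have h7 : (c * (N : ℝ) ^ (-(δ / 2))) ^ 2 = c ^ 2 * (N : ℝ) ^ (-δ) := by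
    rw [mul_pow, ← Real.rpow_natCast ((N : ℝ) ^ (-(δ / 2))), ← Real.rpow_mul hN0.le]
    congr 2
    push_cast
    ring
  rw [h7] at h6
  have h8 : 0 < Real.exp (-(2 * Real.pi ^ 2 / (t * (N : ℝ) ^ 2))) := Real.exp_pos _
  have h9 : 0 < Real.exp (-(b * (3000000 * 2 ^ 4))) := Real.exp_pos _
  calc c ^ 2 * Real.exp (-(b * (3000000 * 2 ^ 4))) * (N : ℝ) ^ (-δ) *
        Real.exp (-(2 * Real.pi ^ 2 / (t * (N : ℝ) ^ 2))) =
      Real.exp (-(2 * Real.pi ^ 2 / (t * (N : ℝ) ^ 2))) *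
        (c ^ 2 * (N : ℝ) ^ (-δ) * Real.exp (-(b * (3000000 * 2 ^ 4)))) := by ring
    _ ≤ _ := mul_le_mul_of_nonneg_left (mul_le_mul_of_nonneg_right h6 h9.le) h8.le

/-- **(B3)** masses with `t N² ≥ κ` -/
theorem om_crit' {b : ℝ} (hb : 0 < b) (hel : helicity b = 2 / Real.pi) {δ κ : ℝ} (hδ : 0 < δ)
    (hκ : 0 < κ) :
    ∃ (c : ℝ) (N0 : ℕ), 0 < c ∧ ∀ (N : ℕ) [NeZero N], N0 ≤ N → ∀ t : ℝ, κ ≤ t * (N : ℝ) ^ 2 →
      c * (N : ℝ) ^ (-δ) ≤ om (wT b N) (t • (1 : Matrix (Tor N) (Tor N) ℝ)) 1 := by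
  obtain ⟨c, N0, hc, h⟩ := om_crit hb hel hδ
  refine ⟨c * Real.exp (-(2 * Real.pi ^ 2 / κ)), N0, by positivity, fun N _ hN t ht => ?_⟩
  have hN0 : (0 : ℝ) < N := Nat.cast_pos.2 (Nat.pos_of_ne_zero (NeZero.ne N))
  have ht0 : 0 < t := by
    by_contra h'
    push Not at h'
    have : t * (N : ℝ) ^ 2 ≤ 0 := mul_nonpos_of_nonpos_of_nonneg h' (by positivity)
    linarith
  refine le_trans ?_ (h N hN t ht0)
  have h1 : 2 * Real.pi ^ 2 / (t * (N : ℝ) ^ 2) ≤ 2 * Real.pi ^ 2 / κ :=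
    div_le_div_of_nonneg_left (by positivity) hκ ht
  have h2 : Real.exp (-(2 * Real.pi ^ 2 / κ)) ≤
      Real.exp (-(2 * Real.pi ^ 2 / (t * (N : ℝ) ^ 2))) := Real.exp_le_exp.2 (neg_le_neg h1)
  have h3 : 0 ≤ c * (N : ℝ) ^ (-δ) := by positivity
  calc c * Real.exp (-(2 * Real.pi ^ 2 / κ)) * (N : ℝ) ^ (-δ) =
      c * (N : ℝ) ^ (-δ) * Real.exp (-(2 * Real.pi ^ 2 / κ)) := by ring
    _ ≤ _ := mul_le_mul_of_nonneg_left h2 h3

/-- the total activity of the charged sectors -/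
theorem Om_crit {b : ℝ} (hb : 0 < b) (hel : helicity b = 2 / Real.pi) {δ κ : ℝ} (hδ : 0 < δ)
    (hκ : 0 < κ) :
    ∃ (c : ℝ) (N0 : ℕ), 0 < c ∧ ∀ (N : ℕ) [NeZero N], N0 ≤ N → ∀ t : ℝ, κ ≤ t * (N : ℝ) ^ 2 →
      c * (N : ℝ) ^ (-δ) ≤ Om (wT b N) (t • (1 : Matrix (Tor N) (Tor N) ℝ)) := by
  obtain ⟨c, N0, hc, h⟩ := om_crit' hb hel hδ hκ
  refine ⟨2 * c, N0, by positivity, fun N _ hN t ht => ?_⟩
  have ht0 : 0 < t := by
    by_contra h'
    push Not at h'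
    have : t * (N : ℝ) ^ 2 ≤ 0 := mul_nonpos_of_nonpos_of_nonneg h' (by positivity)
    linarith
  have h1 := H896.two_om_le (H896.wp_t (N := N) hb.le ht0) (q := 1) one_ne_zero
  have h2 := h N hN t ht
  linarith

end Vale.Agent.P159.H879
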