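import Vale.Agent.P159.H879.Spin2
import Vale.Agent.P159.H513.Blk2
import Vale.Agent.P159.T1.NC.H664.YLow

/-!
STARTV (B2), part 3: the vortex ratio of a block is at most the characteristic function of the
currents of the block at the increments of the angle inside the block.
-/

set_option linter.all false

open MeasureTheory Filter Topology

namespace Vale.Agent.P159.H879

open Vale.Agent.P159 Vale.Agent.P159.H353 Vale.Agent.P159.R2.H254 Vale.Agent.P159.H513
open Vale.Agent.P159.H950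
open Vale.Agent.P159.TM.H129 (ip ip_neg)
open Vale.Agent.P159.T1.H934 Vale.Agent.P159.T1.H731

/-- the edge lies on the boundary of the block -/
def bdE {l : ℕ} (e : H513.EB l) : Prop :=
  if e.2 then (e.1 : ℤ × ℤ).1 + 1 = l else (e.1 : ℤ × ℤ).2 + 1 = l

open Classical in
/-- the twist: increments of the angle on the inner edges -/
noncomputable def vtx (l : ℕ) (e : H513.EB l) : ℝ :=
  if bdE e then 0 else UJ.inc l 0 (uB l e) (vB l e)

lemma proj_inB (l : ℕ) (y : Ginf) (v : ℤ × ℤ) :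
    proj (UJ.inB l 0) y v = proj (intR (blk (0, 0) l)) y v := by
  have hiff : v ∈ UJ.inB l 0 ↔ v ∈ intR (blk (0, 0) l) := by
    rw [mem_intR_blk]
    unfold UJ.inB
    simp only [inner, Set.mem_setOf_eq, sub_zero, Finset.coe_Icc, Set.mem_Icc, Prod.le_def]
    omega
  by_cases h : v ∈ UJ.inB l 0
  · rw [proj_of_mem h, proj_of_mem (hiff.1 h)]
  · rw [proj_of_notMem h, proj_of_notMem fun h' => h (hiff.2 h')]

/-- the energy of the block as a sum over the half-bonds -/
lemma EB_KR (b : ℝ) (l : ℕ) (φ : Ginf) : UJ.EB b l 0 φ =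
    ∑ e : KR (blk (0, 0) l), b / 2 * cosT (φ (hu e.1 e.2) - φ (hu e.1 e.2 + dd (!e.2.1))) := by
  unfold UJ.EB
  rw [← (eBlk (0, 0) l).sum_comp]
  refine Finset.sum_congr rfl fun e _ => ?_
  rw [← hv_eq, eBlk_hu, eBlk_hv]
  rfl

lemma cosT_le_one' (x : T) : cosT x ≤ 1 := by
  unfold cosT
  induction x using Real.Angle.induction_on with
  | h r =>
    rw [Real.Angle.cos_coe]
    exact Real.cos_le_one r

/-- one inner edge -/
lemma inner_edge {l : ℕ} (y : Ginf) (e : H513.EB l) :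
    cosT ((UJ.ang l 0 + UJ.PB l 0 y) (uB l e) - (UJ.ang l 0 + UJ.PB l 0 y) (vB l e)) =
      (chB l e).c y * Real.cos (UJ.inc l 0 (uB l e) (vB l e)) -
        (chB l e).s y * Real.sin (UJ.inc l 0 (uB l e) (vB l e)) := by
  have hinc : ((UJ.inc l 0 (uB l e) (vB l e) : ℝ) : T) =
      UJ.ang l 0 (uB l e) - UJ.ang l 0 (vB l e) := by
    unfold UJ.inc UJ.ang
    exact Complex.arg_div_coe_angle (UJ.H664.wf_ne0 l _) (UJ.H664.wf_ne0 l _)
  have h1 : (UJ.ang l 0 + UJ.PB l 0 y) (uB l e) - (UJ.ang l 0 + UJ.PB l 0 y) (vB l e) =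
      (proj (intR (blk (0, 0) l)) y (uB l e) - proj (intR (blk (0, 0) l)) y (vB l e)) +
        ((UJ.inc l 0 (uB l e) (vB l e) : ℝ) : T) := by
    rw [hinc, Pi.add_apply, Pi.add_apply]
    unfold UJ.PB
    rw [proj_inB, proj_inB]
    abel
  rw [h1]
  refine (Real.Angle.cos_add _ _).trans ?_
  have h2 : Real.Angle.cos ((UJ.inc l 0 (uB l e) (vB l e) : ℝ) : T) =
    Real.cos (UJ.inc l 0 (uB l e) (vB l e)) := Real.Angle.cos_coe _
  have h3 : Real.Angle.sin ((UJ.inc l 0 (uB l e) (vB l e) : ℝ) : T) =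
    Real.sin (UJ.inc l 0 (uB l e) (vB l e)) := Real.Angle.sin_coe _
  rw [h2, h3]
  rfl

/-- one boundary edge -/
lemma bd_edge {l : ℕ} (y : Ginf) {e : H513.EB l} (he : bdE e) :
    (chB l e).c y = 1 ∧ (chB l e).s y = 0 := by
  obtain ⟨⟨⟨c1, c2⟩, hc⟩, t⟩ := e
  have hm := mem_blk.1 hc
  simp only at hm
  have hu0 : proj (intR (blk (0, 0) l)) y (uB l ((⟨(c1, c2), hc⟩ : ↥(blk (0, 0) l)), t)) = 0 ∧
      proj (intR (blk (0, 0) l)) y (vB l ((⟨(c1, c2), hc⟩ : ↥(blk (0, 0) l)), t)) = 0 := by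
    unfold bdE at he
    cases t
    · simp only [Bool.false_eq_true, if_false] at he
      constructor
      · exact proj_out y (by unfold uB hu; simp; omega)
      · exact proj_out y (by unfold vB hv hu; simp; omega)
    · simp only [if_true] at he
      constructor
      · exact proj_out y (by unfold uB hu; simp; omega)
      · exact proj_out y (by unfold vB hv hu; simp; omega)
  have h1 : (chB l ((⟨(c1, c2), hc⟩ : ↥(blk (0, 0) l)), t)).c y =
      cosT (proj (intR (blk (0, 0) l)) y (uB l ((⟨(c1, c2), hc⟩ : ↥(blk (0, 0) l)), t)) -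
        proj (intR (blk (0, 0) l)) y (vB l ((⟨(c1, c2), hc⟩ : ↥(blk (0, 0) l)), t))) := rfl
  have h2 : (chB l ((⟨(c1, c2), hc⟩ : ↥(blk (0, 0) l)), t)).s y =
      sinT (proj (intR (blk (0, 0) l)) y (uB l ((⟨(c1, c2), hc⟩ : ↥(blk (0, 0) l)), t)) -
        proj (intR (blk (0, 0) l)) y (vB l ((⟨(c1, c2), hc⟩ : ↥(blk (0, 0) l)), t))) := rfl
  rw [h1, h2, hu0.1, hu0.2, sub_zero]
  unfold cosT sinT
  exact ⟨Real.Angle.cos_zero, Real.Angle.sin_zero⟩

/-- comparison of the energies -/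
lemma energy_le {b : ℝ} (hb : 0 ≤ b) {l : ℕ} (y : Ginf) :
    UJ.EB b l 0 (UJ.ang l 0 + UJ.PB l 0 y) ≤
      UJ.Ht (fun _ : H513.EB l => b) (chB l) (vtx l) y := by
  classical
  set φ : Ginf := UJ.ang l 0 + UJ.PB l 0 y with hφ
  set G : ℤ × ℤ → Bool → ℝ := fun v t => b / 2 * cosT (φ v - φ (v + dd (!t))) with hG
  set G' : ℤ × ℤ → Bool → ℝ := fun v t =>
    if (if t then v.1 = 0 ∨ v.1 = l else v.2 = 0 ∨ v.2 = l) then b / 2 else G v t with hG'
  have hGG : ∀ v t, G v t ≤ G' v t := by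
    intro v t
    rw [hG']
    simp only
    have h1 : cosT (φ v - φ (v + dd (!t))) ≤ 1 := cosT_le_one' _
    have h2 : 0 ≤ b / 2 := by positivity
    have h3 : G v t ≤ b / 2 := by
      rw [hG]
      simp only
      nlinarith
    by_cases hc : (if t then v.1 = 0 ∨ v.1 = l else v.2 = 0 ∨ v.2 = l)
    · rw [if_pos hc]; exact h3
    · rw [if_neg hc]
  have h1 : UJ.EB b l 0 φ = ∑ e : KR (blk (0, 0) l), G (hu e.1 e.2) e.2.1 := EB_KR b l φ
  have h2 : ∑ e : KR (blk (0, 0) l), G (hu e.1 e.2) e.2.1 ≤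
      ∑ e : KR (blk (0, 0) l), G' (hu e.1 e.2) e.2.1 := Finset.sum_le_sum fun e _ => hGG _ _
  have h3 := sum_half_full l G' (fun j => by simp [hG']) (fun i => by simp [hG'])
  rw [h1]
  refine h2.trans ?_
  rw [h3]
  unfold UJ.Ht
  rw [Finset.mul_sum]
  refine Finset.sum_le_sum fun e _ => ?_
  have hm := mem_blk.1 e.1.2
  simp only at hm
  have hcond : (if e.2 then (uB l e).1 = 0 ∨ (uB l e).1 = l else (uB l e).2 = 0 ∨ (uB l e).2 = l) ↔
      bdE e := by
    unfold bdE uB hu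
    cases e.2
    · simp only [Bool.false_eq_true, if_false, Bool.not_false, Bool.and_true, if_true]
      omega
    · simp only [if_true, Bool.and_true]
      omega
  have huv : uB l e + dd (!e.2) = vB l e := by
    unfold uB vB
    rw [hv_eq]
  have hG'e : G' (hu e.1 (e.2, true)) e.2 = if bdE e then b / 2 else
      b / 2 * cosT (φ (uB l e) - φ (vB l e)) := by
    rw [← huv]
    show (if (if e.2 then (uB l e).1 = 0 ∨ (uB l e).1 = l else (uB l e).2 = 0 ∨ (uB l e).2 = l)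
      then b / 2 else b / 2 * cosT (φ (uB l e) - φ (uB l e + dd (!e.2)))) = _
    by_cases h : bdE e
    · rw [if_pos (hcond.2 h), if_pos h]
    · rw [if_neg (fun h' => h (hcond.1 h')), if_neg h]
  rw [hG'e]
  unfold UJ.Ct vtx
  by_cases h : bdE e
  · rw [if_pos h, if_pos h, (bd_edge y h).1, (bd_edge y h).2, Real.cos_zero, Real.sin_zero]
    linarith
  · rw [if_neg h, if_neg h, ← inner_edge y e]
    linarith

/-- equality of the energies without vortex -/
lemma energy_zero (b : ℝ) (l : ℕ) (y : Ginf) :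
    UJ.EB b l 0 (0 + UJ.PB l 0 y) = UJ.Ht (fun _ : H513.EB l => b) (chB l) 0 y := by
  have h := sum_c b l (fun _ => 1) y
  simp only [mul_one] at h
  unfold UJ.Ht UJ.Ct
  simp only [Pi.zero_apply, Real.cos_zero, Real.sin_zero, mul_one, mul_zero, sub_zero]
  rw [← h, EB_KR]
  refine Finset.sum_congr rfl fun e _ => ?_
  rw [← hv_eq, Pi.add_apply, Pi.add_apply]
  unfold UJ.PB
  rw [proj_inB, proj_inB, Pi.zero_apply, Pi.zero_apply, zero_add, zero_add]
  rfl

/-- **the vortex ratio is at most the characteristic function of the currents** -/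
theorem yy_le {b : ℝ} (hb : 0 ≤ b) (l : ℕ) :
    UJ.yy b l ≤ (ft (gw' (fun _ : H513.EB l => b) (GX (chB l)) 0) (vtx l)).re /
      SG (fun _ : H513.EB l => b) (GX (chB l)) 0 0 := by
  rw [ft_ratio muInf _ _ (fun _ => hb)]
  have h1 : UJ.WB b l 0 (UJ.ang l 0) ≤ UJ.Zr muInf (fun _ : H513.EB l => b) (chB l) (vtx l) := by
    unfold UJ.WB UJ.av
    rw [UJ.Zr_eq]
    have hc : Continuous fun y => UJ.ang l 0 + UJ.PB l 0 y :=
      continuous_const.add (proj_cont _)
    refine integral_mono (cint (Real.continuous_exp.comp ((UJ.EB_cont b l 0).comp hc)))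
      (cint (UJ.cont_expH _ _ _)) fun y => ?_
    exact Real.exp_le_exp.2 (energy_le hb y)
  have h0 : UJ.WB b l 0 0 = UJ.Zr muInf (fun _ : H513.EB l => b) (chB l) 0 := by
    unfold UJ.WB UJ.av
    rw [UJ.Zr_eq]
    simp only [energy_zero]
  unfold UJ.yy
  rw [h0]
  exact div_le_div_of_nonneg_right h1 (UJ.Zr_pos _ _ _ _).le

end Vale.Agent.P159.H879
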