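import Vale.Agent.P159.H879.Vort

/-!
STARTV (B2), part 7: the increments of the angle cut off at distance of order `l` from the centre.
-/

set_option linter.all false

open Filter Topology

namespace Vale.Agent.P159.H879

open Vale.Agent.P159

/-- the cutoff function -/
noncomputable def kf (s : ℝ) : ℝ := max 0 (min 1 (3 - 8 * s))

lemma kf_nonneg (s : ℝ) : 0 ≤ kf s := le_max_left _ _

lemma kf_le_one (s : ℝ) : kf s ≤ 1 := max_le zero_le_one (min_le_left _ _)

lemma kf_one {s : ℝ} (h : s ≤ 1 / 4) : kf s = 1 := by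
  unfold kf
  rw [min_eq_left (by linarith), max_eq_right zero_le_one]

lemma kf_zero {s : ℝ} (h : 3 / 8 ≤ s) : kf s = 0 := by
  unfold kf
  exact max_eq_left ((min_le_right _ _).trans (by linarith))

lemma kf_lip (s s' : ℝ) : |kf s - kf s'| ≤ 8 * |s - s'| := by
  unfold kf
  have h1 := abs_max_sub_max_le_max (0 : ℝ) (min 1 (3 - 8 * s)) 0 (min 1 (3 - 8 * s'))
  have h2 := abs_min_sub_min_le_max (1 : ℝ) (3 - 8 * s) 1 (3 - 8 * s')
  have h3 : |(3 - 8 * s) - (3 - 8 * s')| = 8 * |s - s'| := by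
    rw [show (3 - 8 * s) - (3 - 8 * s') = 8 * (s' - s) by ring, abs_mul, abs_sub_comm]
    norm_num
  have h4 : 0 ≤ 8 * |s - s'| := by positivity
  rw [sub_self, abs_zero] at h1 h2
  rw [h3, max_eq_right h4] at h2
  exact h1.trans (max_le h4 h2)

/-- the cutoff of the cell `c` -/
noncomputable def chi (l : ℕ) (c : ℤ × ℤ) : ℝ := kf (‖UJ.wf l 0 (c + (1, 1))‖ / l)

/-- the increments of the angle cut off -/
noncomputable def PP (l : ℕ) (c : ℤ × ℤ) (t : Bool) : ℝ := chi l c * UU l c t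

/-- the shift -/
def dt (t : Bool) : ℤ × ℤ := if t then (1, 0) else (0, 1)

lemma dt_one (c : ℤ × ℤ) (t : Bool) : c - dt t + (1, 1) = c + (1, 1) - dt t := by abel

lemma rad_dt (l : ℕ) (c : ℤ × ℤ) (t : Bool) :
    |‖UJ.wf l 0 (c - dt t + (1, 1))‖ - ‖UJ.wf l 0 (c + (1, 1))‖| ≤ 1 := by
  rw [dt_one]
  exact rad_sub l (c + (1, 1)) t

lemma chi_diff {l : ℕ} (hl : 16 ≤ l) (c : ℤ × ℤ) (t : Bool) :
    |chi l (c - dt t) - chi l c| ≤ 8 / l := by
  have hl0 : (0 : ℝ) < l := by exact_mod_cast (by omega : 0 < l)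
  unfold chi
  refine (kf_lip _ _).trans ?_
  rw [← sub_div, abs_div, abs_of_pos hl0, ← mul_div_assoc]
  refine div_le_div_of_nonneg_right ?_ hl0.le
  linarith [rad_dt l c t]

/-- bound of the increments far from the centre -/
lemma UU_le {l : ℕ} (hl : 16 ≤ l) {c : ℤ × ℤ} {a B : ℝ} (ha : 0 < a) (hB : 0 ≤ B)
    (hr : a * l ≤ ‖UJ.wf l 0 (c + (1, 1))‖) (hab : 40 ≤ (a * B) ^ 2) (t : Bool) :
    |UU l c t| ≤ B / l := by
  have hl0 : (0 : ℝ) < l := by exact_mod_cast (by omega : 0 < l)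
  refine abs_le_of_sq_le_sq ?_ (by positivity)
  refine (UU_sq_le l c t).trans ?_
  have h1 : 0 < a * l := by positivity
  have h2 : (a * l) ^ 2 ≤ ‖UJ.wf l 0 (c + (1, 1))‖ ^ 2 := pow_le_pow_left₀ h1.le hr 2
  refine (div_le_div_of_nonneg_left (by norm_num) (by positivity) h2).trans ?_
  rw [div_pow, div_le_div_iff₀ (by positivity) (by positivity)]
  nlinarith [mul_le_mul_of_nonneg_right hab (by positivity : (0 : ℝ) ≤ (l : ℝ) ^ 2)]

lemma edge_diff {l : ℕ} (hl : 16 ≤ l) (c : ℤ × ℤ) (t : Bool) :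
    |(chi l (c - dt t) - chi l c) * UU l (c - dt t) t| ≤ 272 / (l : ℝ) ^ 2 := by
  have hl0 : (0 : ℝ) < l := by exact_mod_cast (by omega : 0 < l)
  have hl16 : (16 : ℝ) ≤ l := by exact_mod_cast hl
  have hr := rad_dt l c t
  rw [abs_le] at hr
  by_cases h1 : ‖UJ.wf l 0 (c - dt t + (1, 1))‖ ≤ l / 4 ∧ ‖UJ.wf l 0 (c + (1, 1))‖ ≤ l / 4
  · have e1 : chi l (c - dt t) = 1 := kf_one (by rw [div_le_iff₀ hl0]; linarith [h1.1])
    have e2 : chi l c = 1 := kf_one (by rw [div_le_iff₀ hl0]; linarith [h1.2])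
    rw [e1, e2, sub_self, zero_mul, abs_zero]
    positivity
  · have h2 : (3 / 16 : ℝ) * l ≤ ‖UJ.wf l 0 (c - dt t + (1, 1))‖ := by
      by_contra h
      push Not at h
      apply h1
      constructor
      · linarith
      · linarith [hr.1, hr.2]
    have h3 := UU_le hl (by norm_num : (0 : ℝ) < 3 / 16) (by norm_num : (0 : ℝ) ≤ 34) h2
      (by norm_num) t
    rw [abs_mul]
    calc |chi l (c - dt t) - chi l c| * |UU l (c - dt t) t| ≤ (8 / l) * (34 / l) :=
          mul_le_mul (chi_diff hl c t) h3 (abs_nonneg _) (by positivity)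
      _ = 272 / (l : ℝ) ^ 2 := by field_simp; norm_num

lemma chi_cen {l : ℕ} (hl : 16 ≤ l) : chi l (cen l) = 1 := by
  have hl0 : (0 : ℝ) < l := by exact_mod_cast (by omega : 0 < l)
  have hl16 : (16 : ℝ) ≤ l := by exact_mod_cast hl
  refine kf_one ?_
  rw [div_le_iff₀ hl0]
  have h1 : ‖UJ.wf l 0 (cen l + (1, 1))‖ ^ 2 ≤ 1 := by
    rw [← Complex.normSq_eq_norm_sq, Complex.normSq_apply, wf_re, wf_im]
    simp only [Prod.fst_add, Prod.snd_add, Int.cast_add, Int.cast_one]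
    ring_nf
    norm_num
  have h2 : ‖UJ.wf l 0 (cen l + (1, 1))‖ ≤ 1 := by
    nlinarith [norm_nonneg (UJ.wf l 0 (cen l + (1, 1)))]
  linarith

/-- **the circulation of the cut off increments** -/
theorem curl_PP {l : ℕ} (hl : 16 ≤ l) (c : ℤ × ℤ) :
    |curl (PP l) c - (if c = cen l then 2 * Real.pi else 0)| ≤ 544 / (l : ℝ) ^ 2 := by
  have h1 : curl (PP l) c = chi l c * curl (UU l) c +
      (chi l (c - dt true) - chi l c) * UU l (c - dt true) true -
      (chi l (c - dt false) - chi l c) * UU l (c - dt false) false := by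
    unfold curl PP dt
    simp only [if_true, Bool.false_eq_true, if_false]
    ring
  have h2 : chi l c * (if c = cen l then 2 * Real.pi else 0) =
      if c = cen l then 2 * Real.pi else 0 := by
    split_ifs with h
    · rw [h, chi_cen hl, one_mul]
    · rw [mul_zero]
  rw [h1, curl_UU, h2]
  have h3 := edge_diff hl c true
  have h4 := edge_diff hl c false
  rw [abs_le] at h3 h4 ⊢
  have h5 : 544 / (l : ℝ) ^ 2 = 272 / (l : ℝ) ^ 2 + 272 / (l : ℝ) ^ 2 := by ring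
  rw [h5]
  constructor <;> linarith [h3.1, h3.2, h4.1, h4.2]

/-- the support of the cut off increments -/
lemma PP_supp {l : ℕ} (hl : 16 ≤ l) {c : ℤ × ℤ} {t : Bool} (h : PP l c t ≠ 0) :
    (0 ≤ c.1 ∧ c.1 + 1 < l) ∧ (0 ≤ c.2 ∧ c.2 + 1 < l) := by
  have hl0 : (0 : ℝ) < l := by exact_mod_cast (by omega : 0 < l)
  have hl16 : (16 : ℝ) ≤ l := by exact_mod_cast hl
  have h1 : chi l c ≠ 0 := fun h' => h (by unfold PP; rw [h', zero_mul])
  have h2 : ‖UJ.wf l 0 (c + (1, 1))‖ < 3 / 8 * l := by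
    by_contra h'
    push Not at h'
    exact h1 (kf_zero (by rw [le_div_iff₀ hl0]; exact h'))
  have q1 : (l : ℝ) / 2 - 1 / 2 ≤ ((l / 2 : ℕ) : ℝ) := by
    have : l ≤ 2 * (l / 2) + 1 := by omega
    have h' : (l : ℝ) ≤ 2 * ((l / 2 : ℕ) : ℝ) + 1 := by exact_mod_cast this
    linarith
  have q2 : ((l / 2 : ℕ) : ℝ) ≤ (l : ℝ) / 2 := by
    have : 2 * (l / 2) ≤ l := by omega
    have h' : 2 * ((l / 2 : ℕ) : ℝ) ≤ l := by exact_mod_cast this
    linarith
  have key : ∀ x : ℤ, |(x : ℝ) + 1 - ((l / 2 : ℕ) : ℝ) - 1 / 2| < 3 / 8 * l → 0 ≤ x ∧ x + 1 < l := by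
    intro x hx
    rw [abs_lt] at hx
    constructor
    · have : (-1 : ℝ) < x := by linarith [hx.1]
      have h' : (-1 : ℤ) < x := by exact_mod_cast this
      omega
    · have : (x : ℝ) + 1 < l := by linarith [hx.2]
      exact_mod_cast this
  constructor
  · refine key _ (lt_of_le_of_lt ?_ h2)
    have := Complex.abs_re_le_norm (UJ.wf l 0 (c + (1, 1)))
    rw [wf_re] at this
    have e : (((c + (1, 1)).1 : ℤ) : ℝ) - (((cen l).1 : ℤ) : ℝ) - 1 / 2 =
        (c.1 : ℝ) + 1 - ((l / 2 : ℕ) : ℝ) - 1 / 2 := by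
      unfold cen
      simp only [Prod.fst_add, Int.cast_add, Int.cast_one, Int.cast_natCast]
    rwa [e] at this
  · refine key _ (lt_of_le_of_lt ?_ h2)
    have := Complex.abs_im_le_norm (UJ.wf l 0 (c + (1, 1)))
    rw [wf_im] at this
    have e : (((c + (1, 1)).2 : ℤ) : ℝ) - (((cen l).2 : ℤ) : ℝ) - 1 / 2 =
        (c.2 : ℝ) + 1 - ((l / 2 : ℕ) : ℝ) - 1 / 2 := by
      unfold cen
      simp only [Prod.snd_add, Int.cast_add, Int.cast_one, Int.cast_natCast]
    rwa [e] at this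

/-- the cut off increments differ from the increments only far from the centre -/
lemma PP_sub {l : ℕ} (hl : 16 ≤ l) (c : ℤ × ℤ) (t : Bool) :
    |PP l c t - UU l c t| ≤ 26 / l := by
  have hl0 : (0 : ℝ) < l := by exact_mod_cast (by omega : 0 < l)
  have e : PP l c t - UU l c t = -((1 - chi l c) * UU l c t) := by unfold PP; ring
  rw [e, abs_neg, abs_mul]
  by_cases h1 : ‖UJ.wf l 0 (c + (1, 1))‖ ≤ l / 4
  · have e1 : chi l c = 1 := kf_one (by rw [div_le_iff₀ hl0]; linarith [h1])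
    rw [e1, sub_self, abs_zero, zero_mul]
    positivity
  · push Not at h1
    have h3 := UU_le hl (by norm_num : (0 : ℝ) < 1 / 4) (by norm_num : (0 : ℝ) ≤ 26)
      (c := c) (by linarith) (by norm_num) t
    have h4 : |1 - chi l c| ≤ 1 := by
      rw [abs_of_nonneg (by linarith [kf_le_one (‖UJ.wf l 0 (c + (1, 1))‖ / l), show chi l c = kf (‖UJ.wf l 0 (c + (1, 1))‖ / l) from rfl])]
      linarith [kf_nonneg (‖UJ.wf l 0 (c + (1, 1))‖ / l), show chi l c = kf (‖UJ.wf l 0 (c + (1, 1))‖ / l) from rfl]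
    calc |1 - chi l c| * |UU l c t| ≤ 1 * (26 / l) :=
          mul_le_mul h4 h3 (abs_nonneg _) zero_le_one
      _ = 26 / l := one_mul _

end Vale.Agent.P159.H879
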