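import Vale.Agent.P159.H513.Spin

/-!
STARTV (B2), part 1: lower bounds of characteristic functions of heights.

`Lo κ a ψ`: the Fourier transform of `a n * cos (ψ · n)` is at least `κ` times the one of `a`.
It holds for the currents in any group (Ginibre), and for free currents with an explicit constant.
-/

set_option linter.all false

open MeasureTheory Filter Topology

namespace Vale.Agent.P159.H879

open Vale.Agent.P159 Vale.Agent.P159.H353 Vale.Agent.P159.R2.H254 Vale.Agent.P159.H513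
open Vale.Agent.P159.TM.H129 (circ circ_exp ip ip_neg tr ip_tr tor)
open Vale.Agent.P159.T1.H934 Vale.Agent.P159.T1.H731

variable {A E : Type} [Fintype A] [Fintype E]

/-- **Ginibre inequality for the currents** -/
theorem cov_cos {H : Type} [AddCommGroup H] {D : H →+ (E → ℤ)} (hD : Function.Injective D)
    {J : E → ℝ} (hJ : ∀ e, 0 ≤ J e) (θ φ : E → ℝ) :
    (∑' h, W D J h * Real.cos (ln D θ h)) * ∑' h, W D J h * Real.cos (ln D φ h) ≤
      (∑' h, W D J h * (Real.cos (ln D θ h) * Real.cos (ln D φ h))) * ∑' h, W D J h := by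
  have aW : Summable fun h => |W D J h| := (W_summable (D := D) hD hJ).abs
  have bd : ∀ f : H → ℝ, (∀ h, |f h| ≤ 1) → Summable fun h => |W D J h * f h| := fun f hf =>
    Summable.of_nonneg_of_le (fun _ => abs_nonneg _) (fun h => by
      rw [abs_mul]; exact mul_le_of_le_one_right (abs_nonneg _) (hf h)) aW
  have a1 := bd (fun h => Real.cos (ln D θ h)) fun h => Real.abs_cos_le_one _
  have a2 := bd (fun h => Real.cos (ln D φ h)) fun h => Real.abs_cos_le_one _
  have a3 := bd (fun h => Real.cos (ln D θ h) * Real.cos (ln D φ h)) fun h => by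
    rw [abs_mul]
    exact mul_le_one₀ (Real.abs_cos_le_one _) (abs_nonneg _) (Real.abs_cos_le_one _)
  have gb : ∀ h : H, |Real.sin (ln D θ h / 2) * Real.sin (ln D φ h / 2)| ≤
      1 * Real.exp |ln D (0 : E → ℝ) h| := fun h => by
    rw [abs_mul, one_mul]
    have h1 : (1 : ℝ) ≤ Real.exp |ln D (0 : E → ℝ) h| := Real.one_le_exp (abs_nonneg _)
    exact (mul_le_one₀ (Real.abs_sin_le_one _) (abs_nonneg _) (Real.abs_sin_le_one _)).trans h1
  have h0 := dup_gen (D := D) hD hJ (K := 0) (fun _ => le_rfl)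
    (g := fun h => Real.sin (ln D θ h / 2) * Real.sin (ln D φ h / 2)) (C := 1)
    (one_le_rho (0 : E → ℝ)) (growth zero_le_one gb) 0 (by simp)
  rw [add_zero] at h0
  have h1 := ((((hasSum_mul_pair a3 aW).add (hasSum_mul_pair aW a3)).sub
    (hasSum_mul_pair a1 a2)).sub (hasSum_mul_pair a2 a1)).mul_left (1 / 4)
  have e : ∀ x : H × H, (W D J x.1 * W D J x.2 + 0 * (W D J x.1 * W D J x.2)) *
      (Real.sin (ln D θ (x.1 + x.2) / 2) * Real.sin (ln D φ (x.1 + x.2) / 2) *
        (Real.sin (ln D θ (x.1 - x.2) / 2) * Real.sin (ln D φ (x.1 - x.2) / 2))) =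
      1 / 4 * (W D J x.1 * (Real.cos (ln D θ x.1) * Real.cos (ln D φ x.1)) * W D J x.2 +
        W D J x.1 * (W D J x.2 * (Real.cos (ln D θ x.2) * Real.cos (ln D φ x.2))) -
        W D J x.1 * Real.cos (ln D θ x.1) * (W D J x.2 * Real.cos (ln D φ x.2)) -
        W D J x.1 * Real.cos (ln D φ x.1) * (W D J x.2 * Real.cos (ln D θ x.2))) := by
    intro x
    have key : ∀ ψ : E → ℝ, Real.sin (ln D ψ (x.1 + x.2) / 2) * Real.sin (ln D ψ (x.1 - x.2) / 2) =
        (Real.cos (ln D ψ x.2) - Real.cos (ln D ψ x.1)) / 2 := by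
      intro ψ
      rw [ln_add, ln_sub]
      have e3 := Real.cos_add ((ln D ψ x.1 + ln D ψ x.2) / 2) ((ln D ψ x.1 - ln D ψ x.2) / 2)
      have e4 := Real.cos_sub ((ln D ψ x.1 + ln D ψ x.2) / 2) ((ln D ψ x.1 - ln D ψ x.2) / 2)
      rw [show (ln D ψ x.1 + ln D ψ x.2) / 2 + (ln D ψ x.1 - ln D ψ x.2) / 2 = ln D ψ x.1 by
        ring] at e3
      rw [show (ln D ψ x.1 + ln D ψ x.2) / 2 - (ln D ψ x.1 - ln D ψ x.2) / 2 = ln D ψ x.2 by
        ring] at e4
      linarith
    calc _ = W D J x.1 * W D J x.2 *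
        ((Real.sin (ln D θ (x.1 + x.2) / 2) * Real.sin (ln D θ (x.1 - x.2) / 2)) *
        (Real.sin (ln D φ (x.1 + x.2) / 2) * Real.sin (ln D φ (x.1 - x.2) / 2))) := by ring
      _ = _ := by rw [key, key]; ring
  rw [tsum_congr e, h1.tsum_eq] at h0
  linarith

/-- the Fourier transform of `a n * cos (ψ · n)` is at least `κ` times the one of `a` -/
def Lo (κ : ℝ) (a : (E → ℤ) → ℝ) (ψ : E → ℝ) : Prop :=
  ∀ θ, κ * (ft a θ).re ≤ (ft (fun n => a n * Real.cos (ip ψ n)) θ).re

lemma summ_cos {a : (E → ℤ) → ℝ} (ha : Summable fun n => |a n|) (ψ : E → ℝ) :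
    Summable fun n => |a n * Real.cos (ip ψ n)| :=
  Summable.of_nonneg_of_le (fun _ => abs_nonneg _) (fun n => by
    rw [abs_mul]; exact mul_le_of_le_one_right (abs_nonneg _) (Real.abs_cos_le_one _)) ha

lemma even_cos {a : (E → ℤ) → ℝ} (he : ∀ n, a (-n) = a n) (ψ : E → ℝ) (n : E → ℤ) :
    a (-n) * Real.cos (ip ψ (-n)) = a n * Real.cos (ip ψ n) := by
  rw [he, ip_neg, Real.cos_neg]

lemma gw'_even0 (J : E → ℝ) (Γ : AddSubgroup (E → ℤ)) (n : E → ℤ) :
    gw' J Γ 0 (-n) = gw' J Γ 0 n := by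
  classical
  unfold gw'
  have e2 : wt J 0 (-n) = wt J 0 n := by
    unfold T1.H731.wt
    simp [wI_neg]
  rw [neg_mem_iff, e2]

/-- the currents in a group -/
theorem lo_currents {J : E → ℝ} (hJ : ∀ e, 0 ≤ J e) (Γ : AddSubgroup (E → ℤ)) (ψ : E → ℝ) :
    Lo ((ft (gw' J Γ 0) ψ).re / SG J Γ 0 0) (gw' J Γ 0) ψ := by
  classical
  intro θ
  have hab : Summable fun n => |gw' J Γ 0 n| := (gw'_summable hJ Γ 0).abs
  set D : Γ →+ (E → ℤ) := Γ.subtype with hD
  have hDi : Function.Injective D := Subtype.val_injective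
  have hW : ∀ h : Γ, W D J h = wt J 0 (h : E → ℤ) := fun h => by
    unfold W T1.H731.wt
    simp [hD]
  have hln : ∀ (θ : E → ℝ) (h : Γ), ln D θ h = ip θ (h : E → ℤ) := fun θ h => rfl
  have e5 : SG J Γ 0 0 = ∑' h : Γ, W D J h := by
    have := tsum_gw' J Γ 0 fun _ => 1
    simp only [mul_one] at this
    rw [SG_eq, this]
    exact tsum_congr fun h => (hW h).symm
  have e6 : ∀ θ : E → ℝ, (ft (gw' J Γ 0) θ).re = ∑' h : Γ, W D J h * Real.cos (ln D θ h) := by
    intro θ
    rw [ft_re hab, tsum_gw']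
    exact tsum_congr fun h => by rw [hW, hln]
  have e7 : (ft (fun n => gw' J Γ 0 n * Real.cos (ip ψ n)) θ).re =
      ∑' h : Γ, W D J h * (Real.cos (ln D ψ h) * Real.cos (ln D θ h)) := by
    rw [ft_re (summ_cos hab ψ)]
    have := tsum_gw' J Γ 0 fun n => Real.cos (ip ψ n) * Real.cos (ip θ n)
    refine Eq.trans (tsum_congr fun n => ?_) (this.trans (tsum_congr fun h => ?_))
    · ring
    · rw [hW, hln, hln]
  have h0 := SG_pos hJ Γ 0
  rw [div_mul_eq_mul_div, div_le_iff₀ h0, e7, e6, e6, e5]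
  exact cov_cos hDi hJ ψ θ

/-- **monotonicity**: a positive definite factor preserves the lower bound -/
theorem lo_mono (D : E → A → ℤ) {M : (A → ℤ) → ℝ} (hM : Dom 1 M M) {a : (E → ℤ) → ℝ}
    (ha : Summable fun n => |a n|) (he : ∀ n, a (-n) = a n) {κ : ℝ} {ψ : E → ℝ}
    (h : Lo κ a ψ) :
    κ * ∑' x, M x * a (TM.H129.nn D x) ≤
      ∑' x, M x * (a (TM.H129.nn D x) * Real.cos (ip ψ (TM.H129.nn D x))) := by
  have htc : Continuous fun θ : E → ℝ => (0 : A → ℝ) - TM.H129.tr D θ := by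
    unfold TM.H129.tr
    fun_prop
  have hs := summ_cos ha ψ
  have hev := even_cos he ψ
  have f1 := ft_mul D hM.sP ha 0
  have f2 := ft_mul D hM.sP hs 0
  have hP : ∀ φ, 0 ≤ (ft M φ).re := fun φ => by
    have := hM.le φ
    rw [one_mul] at this
    exact (norm_nonneg _).trans this
  have g1 : ∀ {c : (E → ℤ) → ℝ}, (Summable fun n => |c n|) → (∀ n, c (-n) = c n) →
      ∀ θ, ft c θ * ft M (0 - TM.H129.tr D θ) = (((ft c θ).re * (ft M (0 - TM.H129.tr D θ)).re : ℝ) : ℂ) := by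
    intro c hc hce θ
    rw [Complex.ofReal_mul, ← ft_eq_re hc hce, ← ft_eq_re hM.sP hM.even]
  have g2 : ∀ {c : (E → ℤ) → ℝ}, (Summable fun n => |c n|) →
      Integrable (fun θ => (ft c θ).re * (ft M (0 - TM.H129.tr D θ)).re) (tor E) := by
    intro c hc
    have c2 : Continuous fun θ => (ft c θ).re * (ft M (0 - TM.H129.tr D θ)).re :=
      (Complex.continuous_re.comp (ft_cont hc)).mul
        (Complex.continuous_re.comp ((ft_cont hM.sP).comp htc))
    refine Integrable.of_bound (C := (∑' n, |c n|) * ∑' x, |M x|) c2.aestronglyMeasurable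
      (Eventually.of_forall fun θ => ?_)
    rw [norm_mul]
    refine mul_le_mul ?_ ?_ (norm_nonneg _) (tsum_nonneg fun _ => abs_nonneg _)
    · exact (Complex.abs_re_le_norm _).trans (ft_norm_le hc _)
    · exact (Complex.abs_re_le_norm _).trans (ft_norm_le hM.sP _)
  simp only [g1 ha he] at f1
  simp only [g1 hs hev] at f2
  rw [ft_zero, integral_complex_ofReal] at f1 f2
  have f1' := Complex.ofReal_injective f1
  have f2' := Complex.ofReal_injective f2
  rw [f1', f2', ← integral_const_mul]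
  refine integral_mono ((g2 ha).const_mul κ) (g2 hs) fun θ => ?_
  simp only
  have := mul_le_mul_of_nonneg_right (h θ) (hP (0 - TM.H129.tr D θ))
  linarith

end Vale.Agent.P159.H879
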