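import Vale.Agent.P159.H879.Pin

/-!
STARTV (B2), part 5: lower bounds of the characteristic function of the pinned torus weight
(vortex in a block, smooth fields) and the Ginibre inequality for two sources.
-/

set_option linter.all false

open MeasureTheory Filter Topology Matrix

namespace Vale.Agent.P159.H879

open Vale.Agent.P159 Vale.Agent.P159.H353 Vale.Agent.P159.R2.H254 Vale.Agent.P159.H513
open Vale.Agent.P159.H950
open Vale.Agent.P159.TM.H129 (ip ip_neg)
open Vale.Agent.P159.TM.H104 (EM)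
open Vale.Agent.P159.T1.H934 Vale.Agent.P159.T1.H731
open Vale.Agent.P159.H37 (qf bf re wM ZM Zn Zq qf_add_mat Ev)
open Vale.Agent.P159.TM.SpecC (Tor wT)
open Vale.Agent.P159.H963 (pin ntr MF GW nM nwt mf_smul em_nwt ev_nwt gw_wT)
open Vale.Agent.P159.H896 (DG GramK ND parity_gram feat_src Feat)

section gin

variable {V : Type} [Fintype V] [DecidableEq V]

theorem dg_ind (x₀ : V) : DG fun h : V → ℤ => if h x₀ = 0 then (1 : ℝ) else 0 := by
  classical
  refine ((parity_gram (V := V)).mul (GramK.rank1 fun u : V → ℤ =>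
    if u x₀ = 0 then (1 : ℝ) else 0)).congr fun u v => ?_
  unfold H896.ND
  by_cases h : ∀ x, 2 ∣ u x - v x
  · rw [if_pos h, if_pos h, one_mul]
    obtain ⟨k, hk⟩ := h x₀
    have e1 : (u x₀ + v x₀) / 2 = v x₀ + k := by omega
    have e2 : (u x₀ - v x₀) / 2 = k := by omega
    simp only [e1, e2]
    by_cases h1 : u x₀ = 0
    · by_cases h2 : v x₀ = 0
      · have h3 : k = 0 := by omega
        simp [h1, h2, h3]
      · by_cases h3 : k = 0
        · exfalso; omega
        · simp [h1, h2, h3]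
    · by_cases h2 : v x₀ = 0
      · have h3 : k ≠ 0 := by omega
        simp [h1, h2, h3]
      · by_cases h3 : k = 0
        · have h4 : v x₀ + k ≠ 0 := by omega
          simp only [if_neg h1, if_neg h2, if_neg h4]
          ring
        · simp [h1, h2, h3]
  · rw [if_neg h, if_neg h, zero_mul]

theorem dg_pin {μ : (V → ℤ) → ℝ} (h : DG μ) (x₀ : V) : DG (pin μ x₀) := by
  have h1 := h.mul (dg_ind x₀)
  have e : (fun h : V → ℤ => μ h * if h x₀ = 0 then (1 : ℝ) else 0) = pin μ x₀ := by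
    funext h
    unfold H963.pin
    split_ifs <;> ring
  rwa [e] at h1

lemma em_abs {μ : (V → ℤ) → ℝ} (hE : EM μ) : Summable fun h => |μ h| := by
  have h1 := hE.sum 0
  simp only [zero_mul, Real.exp_zero, mul_one] at h1
  exact h1.abs

/-- imaginary sources -/
def im (g : V → ℝ) : V → ℂ := fun x => Complex.I * (g x : ℂ)

lemma Zc_im (μ : (V → ℤ) → ℝ) (g : V → ℝ) : H896.Zc μ (im g) = ft μ g := by
  unfold H896.Zc ft ph H896.pr im ip
  refine tsum_congr fun h => ?_
  congr 2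
  push_cast
  rw [Finset.mul_sum]
  exact Finset.sum_congr rfl fun x _ => by ring

/-- **Ginibre inequality for two sources** -/
theorem gin {μ : (V → ℤ) → ℝ} (hE : EM μ) (hev : ∀ h, μ (-h) = μ h) (hG : DG μ) (g c : V → ℝ) :
    ((ft μ g).re * (ft μ c).re) ^ 2 ≤
      (ft μ 0).re ^ 2 * ((ft μ (g + c)).re * (ft μ (g - c)).re) := by
  obtain ⟨H, i1, i2, i3, Φ, hΦ⟩ := feat_src hE hev hG
  have hR : ∀ g : V → ℝ, H896.Zc μ (im g) = (((ft μ g).re : ℝ) : ℂ) := fun g => by
    rw [Zc_im]; exact ft_eq_re (em_abs hE) hev g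
  have hstar : ∀ s : V → ℝ, star (im s) = im (-s) := fun s => by
    funext x
    simp [im]
  have hadd : ∀ s u : V → ℝ, im s + im u = im (s + u) := fun s u => by
    funext x
    simp [im, mul_add]
  have hsub : ∀ s u : V → ℝ, im s - im u = im (s - u) := fun s u => by
    funext x
    simp [im, mul_sub]
  have hneg : ∀ s : V → ℝ, (ft μ (-s)).re = (ft μ s).re := fun s => by
    rw [ft_re (em_abs hE), ft_re (em_abs hE)]
    refine tsum_congr fun h => ?_
    rw [H513.ip_neg_left, Real.cos_neg]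
  set s : V → ℝ := (1 / 2 : ℝ) • (g + c) with hs
  set u : V → ℝ := (1 / 2 : ℝ) • (g - c) with hu
  have e1 : s + u = g := by
    funext x; simp only [hs, hu, Pi.add_apply, Pi.smul_apply, Pi.sub_apply, smul_eq_mul]; ring
  have e2 : s - u = c := by
    funext x; simp only [hs, hu, Pi.add_apply, Pi.smul_apply, Pi.sub_apply, smul_eq_mul]; ring
  have e3 : s + s = g + c := by
    funext x; simp only [hs, hu, Pi.add_apply, Pi.smul_apply, Pi.sub_apply, smul_eq_mul]; ring
  have e4 : u + u = g - c := by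
    funext x; simp only [hs, hu, Pi.add_apply, Pi.smul_apply, Pi.sub_apply, smul_eq_mul]; ring
  have k1 : Inner.inner ℂ (Φ (im s)) (Φ (im u)) =
      (((ft μ c).re * (ft μ g).re : ℝ) : ℂ) := by
    rw [hΦ.ker, hstar, hadd, hsub, hR, hR]
    have f1 : (-s + u : V → ℝ) = -c := by rw [← e2]; abel
    have f2 : (-s - u : V → ℝ) = -g := by rw [← e1]; abel
    rw [f1, f2, hneg, hneg]
    push_cast
    ring
  have k2 : ∀ s : V → ℝ, ‖Φ (im s)‖ ^ 2 = (ft μ 0).re * (ft μ (s + s)).re := by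
    intro s
    rw [hΦ.normSq, hstar, hadd, hsub, hR, hR]
    have f1 : (-s + s : V → ℝ) = 0 := by abel
    have f2 : (-s - s : V → ℝ) = -(s + s) := by abel
    rw [f1, f2, hneg, ← Complex.ofReal_mul, Complex.ofReal_re]
  have h1 := norm_inner_le_norm (𝕜 := ℂ) (Φ (im s)) (Φ (im u))
  rw [k1, Complex.norm_real, Real.norm_eq_abs] at h1
  have h2 := pow_le_pow_left₀ (abs_nonneg _) h1 2
  rw [sq_abs, mul_pow ‖Φ (im s)‖, k2, k2, e3, e4] at h2
  calc ((ft μ g).re * (ft μ c).re) ^ 2 = ((ft μ c).re * (ft μ g).re) ^ 2 := by ring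
    _ ≤ _ := h2
    _ = _ := by ring

end gin

section torus

variable {N : ℕ} [NeZero N] {b t : ℝ}

lemma nwt_eq (b t : ℝ) (x₀ : Tor N) (h : Tor N → ℤ) : nwt N b t x₀ h =
    pG (t • (1 : Matrix (Tor N) (Tor N) ℝ)) t x₀ h * ∏ e : Tor N × Bool, wI b (gT h e) := by
  unfold H963.nwt H963.nM pG H963.pin H37.wM
  rw [wT_gT]
  split_ifs
  · ring
  · ring

theorem dg_nwt (hb : 0 ≤ b) (ht : 0 < t) (x₀ : Tor N) : DG (nwt N b t x₀) := by
  unfold H963.nwt H963.nM
  exact dg_pin (H896.dg_mass (H963.ntr_transpose (mf_smul ht).symm t) (H896.dg_wT hb N)) x₀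

lemma gw_top {E : Type} [Fintype E] (J : E → ℝ) (n : E → ℤ) :
    gw' J ⊤ 0 n = ∏ e, wI (J e) (n e) := by
  unfold gw' T1.H731.wt
  rw [if_pos (AddSubgroup.mem_top n)]
  simp

lemma gw_mem {E : Type} [Fintype E] (J : E → ℝ) {Γ : AddSubgroup (E → ℤ)} {n : E → ℤ}
    (hn : n ∈ Γ) : gw' J Γ 0 n = ∏ e, wI (J e) (n e) := by
  unfold gw' T1.H731.wt
  rw [if_pos hn]
  simp

/-- the characteristic function of the pinned weight is nonnegative -/
theorem dom_nwt (hb : 0 ≤ b) (ht : 0 < t) (x₀ : Tor N) : Dom 1 (nwt N b t x₀) (nwt N b t x₀) := by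
  have h1 := (dom_pG (mf_smul (N := N) ht) x₀).mul (fun e : Tor N × Bool => DT N e)
    (dom_cur (J := fun _ : Tor N × Bool => b) (fun _ => hb) ⊤)
  rw [one_mul] at h1
  have e : (fun h => pG (t • (1 : Matrix (Tor N) (Tor N) ℝ)) t x₀ h *
      gw' (fun _ : Tor N × Bool => b) ⊤ 0 (TM.H129.nn (fun e => DT N e) h)) = nwt N b t x₀ := by
    funext h
    rw [nwt_eq, gw_top]
    congr 1
    refine Finset.prod_congr rfl fun e _ => ?_
    congr 1
    exact nn_DT h e
  rw [e] at h1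
  exact h1

/-- **smooth fields** -/
theorem cf_free (hb : 0 ≤ b) (ht : 0 < t) (x₀ : Tor N) (ψ : Tor N × Bool → ℝ) :
    Real.exp (-∑ e, b * (1 - Real.cos (ψ e))) * ∑' h, nwt N b t x₀ h ≤
      ∑' h, nwt N b t x₀ h * Real.cos (∑ e, ψ e * (gT h e : ℝ)) := by
  have hJ : ∀ e : Tor N × Bool, 0 ≤ (fun _ : Tor N × Bool => b) e := fun _ => hb
  have h1 := lo_mono (fun e : Tor N × Bool => DT N e) (dom_pG (mf_smul (N := N) ht) x₀)
    (gw'_summable hJ ⊤ 0).abs (gw'_even0 _ ⊤) (lo_top hJ ψ)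
  have e : ∀ h, pG (t • (1 : Matrix (Tor N) (Tor N) ℝ)) t x₀ h *
      gw' (fun _ : Tor N × Bool => b) ⊤ 0 (TM.H129.nn (fun e => DT N e) h) = nwt N b t x₀ h := by
    intro h
    rw [nwt_eq, gw_top]
    congr 1
    refine Finset.prod_congr rfl fun e _ => ?_
    congr 1
    exact nn_DT h e
  simp only [← mul_assoc, e] at h1
  have e2 : ∀ h, ip ψ (TM.H129.nn (fun e => DT N e) h) = ∑ e, ψ e * (gT h e : ℝ) := by
    intro h
    unfold Vale.Agent.P159.TM.H129.ip
    refine Finset.sum_congr rfl fun e _ => ?_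
    congr 2
    exact nn_DT h e
  simp only [e2] at h1
  exact h1

/-- **vortex in a block** -/
theorem cf_blk (hb : 0 ≤ b) (ht : 0 < t) {l : ℕ} (hl : l ≤ N) (x₀ : Tor N) :
    UJ.yy b l * ∑' h, nwt N b t x₀ h ≤
      ∑' h, nwt N b t x₀ h *
        Real.cos (∑ e : H513.EB l, vtx l e * (gT h (emb N l e) : ℝ)) := by
  have hJ : ∀ e : H513.EB l, 0 ≤ (fun _ : H513.EB l => b) e := fun _ => hb
  have hM := (dom_pG (mf_smul (N := N) ht) x₀).mul (fun e : EO N l => DT N e.1)
    (dom_cur (J := fun _ : EO N l => b) (fun _ => hb) ⊤)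
  rw [one_mul] at hM
  have hκ : UJ.yy b l ≤ (ft (gw' (fun _ : H513.EB l => b) (GX (chB l)) 0) (vtx l)).re /
      SG (fun _ : H513.EB l => b) (GX (chB l)) 0 0 := yy_le hb l
  have h1 := lo_mono (Dk N l 1 (0, 0)) hM
    (gw'_summable hJ (GX (chB l)) 0).abs (gw'_even0 _ (GX (chB l)))
    (lo_currents hJ (GX (chB l)) (vtx l))
  have e : ∀ h, pG (t • (1 : Matrix (Tor N) (Tor N) ℝ)) t x₀ h *
      gw' (fun _ : EO N l => b) ⊤ 0 (TM.H129.nn (fun e : EO N l => DT N e.1) h) *
      gw' (fun _ : H513.EB l => b) (GX (chB l)) 0 (TM.H129.nn (Dk N l 1 (0, 0)) h) =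
      nwt N b t x₀ h := by
    intro h
    rw [nn_Dk, gw_mem _ (cur_mem _), gw_top, nwt_eq, prod_emb hl]
    have e1 : ∀ e : EO N l, TM.H129.nn (fun e : EO N l => DT N e.1) h e = gT h e.1 :=
      fun e => nn_DT h e.1
    have e2 : ∀ e : H513.EB l, H513.cur (fun c => h (H513.st N l 1 (0, 0) c)) e =
        gT h (emb N l e) := fun e => (gT_emb h e).symm
    simp only [e1, e2]
    ring
  simp only [← mul_assoc, e] at h1
  have e2 : ∀ h, ip (vtx l) (TM.H129.nn (Dk N l 1 (0, 0)) h) =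
      ∑ e : H513.EB l, vtx l e * (gT h (emb N l e) : ℝ) := by
    intro h
    rw [nn_Dk]
    unfold Vale.Agent.P159.TM.H129.ip
    exact Finset.sum_congr rfl fun e _ => by rw [gT_emb]
  simp only [e2] at h1
  refine le_trans (mul_le_mul_of_nonneg_right hκ ?_) h1
  exact tsum_nonneg fun h => (em_nwt hb ht x₀).nn h

end torus

end Vale.Agent.P159.H879
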