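import Vale.Agent.P159.H879.Mono

/-!
STARTV (B2), part 2: duality at real angles.
-/

set_option linter.all false

open MeasureTheory Filter Topology

namespace Vale.Agent.P159.H879

open Vale.Agent.P159 Vale.Agent.P159.H353 Vale.Agent.P159.R2.H254 Vale.Agent.P159.H513
open Vale.Agent.P159.TM.H129 (ip ip_neg)
open Vale.Agent.P159.T1.H934 Vale.Agent.P159.T1.H731

section dual

variable {G : Type*} [AddCommGroup G] [TopologicalSpace G] [IsTopologicalAddGroup G]
  [CompactSpace G] [SecondCountableTopology G] [MeasurableSpace G] [BorelSpace G]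
  (μ : Measure G) [μ.IsAddHaarMeasure] [IsProbabilityMeasure μ]
  {κ : Type} [Fintype κ] (J : κ → ℝ) (χ : κ → Chr G)

omit [IsTopologicalAddGroup G] [CompactSpace G] [SecondCountableTopology G] [MeasurableSpace G]
  [BorelSpace G] [Fintype κ] in
lemma expR (B : Chr G) {b : ℝ} (hb : 0 ≤ b) (θ : ℝ) (x : G) :
    HasSum (fun n : ℤ => (wI b n : ℂ) * (Complex.exp (θ * Complex.I) * B.e x) ^ n)
      (Complex.exp ((b * (B.c x * Real.cos θ - B.s x * Real.sin θ) : ℝ))) := by
  have hz : Complex.exp (θ * Complex.I) * B.e x ≠ 0 :=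
    mul_ne_zero (Complex.exp_ne_zero _) (e_ne B x)
  have h := laurent hb hz
  have e1 : (Complex.exp (θ * Complex.I) * B.e x + (Complex.exp (θ * Complex.I) * B.e x)⁻¹) / 2 =
      ((B.c x * Real.cos θ - B.s x * Real.sin θ : ℝ) : ℂ) := by
    have h3 : (Complex.exp (θ * Complex.I))⁻¹ = Complex.exp (-θ * Complex.I) := by
      rw [← Complex.exp_neg]; congr 1; ring
    rw [mul_inv, e_inv, h3]
    unfold Chr.e
    rw [Complex.exp_mul_I, Complex.exp_mul_I, Complex.cos_neg, Complex.sin_neg]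
    push_cast
    have hI := Complex.I_sq
    linear_combination ((B.s x : ℂ) * Complex.sin θ) * hI
  rw [e1] at h
  rw [Complex.ofReal_mul]
  exact h

/-- **duality at real angles** -/
theorem ft_Zr (hJ : ∀ e, 0 ≤ J e) (θ : κ → ℝ) :
    ft (gw' J (GX χ) 0) θ = ((UJ.Zr μ J χ θ : ℝ) : ℂ) := by
  classical
  set tm : (κ → ℤ) → G → ℂ := fun n x =>
    ∏ e, ((wI (J e) (n e) : ℂ) * (Complex.exp (θ e * Complex.I) * (χ e).e x) ^ (n e)) with htm
  have hph : ∀ n : κ → ℤ, ph θ n = ∏ e, Complex.exp (θ e * Complex.I) ^ (n e) := by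
    intro n
    unfold ph ip
    simp only [← Complex.exp_int_mul]
    rw [← Complex.exp_sum]
    congr 1
    push_cast
    rw [Finset.mul_sum]
    exact Finset.sum_congr rfl fun e _ => by ring
  have hw : ∀ n, wt J 0 n = ∏ e, wI (J e) (n e) := fun n => by
    unfold T1.H731.wt
    simp
  have htm' : ∀ n x, tm n x = (wt J 0 n : ℂ) * ph θ n * pc χ n x := by
    intro n x
    rw [htm, hw, hph]
    unfold pc
    simp only [mul_zpow]
    rw [Finset.prod_mul_distrib, Finset.prod_mul_distrib]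
    push_cast
    ring
  have hnorm : ∀ n x, ‖tm n x‖ = wt J 0 n := by
    intro n x
    rw [htm', norm_mul, norm_mul, norm_pc, norm_ph, mul_one, mul_one, Complex.norm_real,
      Real.norm_eq_abs, abs_of_nonneg (wt_nonneg hJ 0 n)]
  have hpt : ∀ x : G, HasSum (fun n => tm n x) (Complex.exp ((UJ.Ht J χ θ x : ℝ))) := by
    intro x
    have h := prod_tsum_all ℤ κ (fun e n => ((wI (J e) n : ℂ) *
      (Complex.exp (θ e * Complex.I) * (χ e).e x) ^ n))
      (fun e => (expR (χ e) (hJ e) (θ e) x).summable.norm)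
    have h2 : ∏ e, ∑' n : ℤ, ((wI (J e) n : ℂ) *
      (Complex.exp (θ e * Complex.I) * (χ e).e x) ^ n) = Complex.exp ((UJ.Ht J χ θ x : ℝ)) := by
      unfold UJ.Ht UJ.Ct
      push_cast
      rw [Complex.exp_sum]
      refine Finset.prod_congr rfl fun e _ => ?_
      have := (expR (χ e) (hJ e) (θ e) x).tsum_eq
      push_cast at this
      exact this
    have h4 := (h.1.of_norm).hasSum
    rw [h.2, h2] at h4
    exact h4
  have hcont : ∀ n, Continuous (tm n) := by
    intro n
    have : tm n = fun x => (wt J 0 n : ℂ) * ph θ n * pc χ n x := funext fun x => htm' n x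
    rw [this]
    exact continuous_const.mul (pc_cont χ _)
  have hint : ∀ n, ∫ x, tm n x ∂μ = ((gw' J (GX χ) 0 n : ℝ) : ℂ) * ph θ n := by
    intro n
    simp only [htm']
    rw [integral_const_mul, pc_integral]
    unfold gw'
    split_ifs <;> simp
  have hs := hasSum_integral_of_summable_integral_norm (μ := μ) (F := tm)
    (fun n => cint (hcont n)) (by
      simp only [hnorm]
      simpa using wt_summable hJ 0)
  simp only [hint] at hs
  have e6 : ∀ x : G, ∑' n, tm n x = ((Real.exp (UJ.Ht J χ θ x) : ℝ) : ℂ) :=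
    fun x => by rw [(hpt x).tsum_eq, Complex.ofReal_exp]
  simp only [e6] at hs
  rw [integral_complex_ofReal, ← UJ.Zr_eq] at hs
  exact hs.tsum_eq

/-- the characteristic function of the currents is the ratio of the spins -/
theorem ft_ratio (hJ : ∀ e, 0 ≤ J e) (θ : κ → ℝ) :
    (ft (gw' J (GX χ) 0) θ).re / SG J (GX χ) 0 0 = UJ.Zr μ J χ θ / UJ.Zr μ J χ 0 := by
  have h1 := ft_Zr μ J χ hJ θ
  have h0 := ft_Zr μ J χ hJ 0
  rw [ft_zero, ← SG_eq] at h0
  rw [h1, Complex.ofReal_re, Complex.ofReal_injective h0]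

end dual

/-- the trivial character -/
noncomputable def trv : Chr Ginf where
  c := fun _ => 1
  s := fun _ => 0
  cont_c := continuous_const
  cont_s := continuous_const
  c_add := by intros; norm_num
  s_add := by intros; norm_num
  norm_sq := by intros; norm_num

variable {E : Type} [Fintype E]

lemma GX_trv : GX (fun _ : E => trv) = ⊤ := by
  rw [eq_top_iff]
  intro n _
  rw [mem_GX]
  intro x
  unfold pc
  refine Finset.prod_eq_one fun e _ => ?_
  have : trv.e x = 1 := by
    unfold Chr.e trv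
    simp
  rw [this, one_zpow]

/-- transform of the free currents -/
theorem ft_top {J : E → ℝ} (hJ : ∀ e, 0 ≤ J e) (θ : E → ℝ) :
    (ft (gw' J ⊤ 0) θ).re = Real.exp (∑ e, J e * Real.cos (θ e)) := by
  have h := ft_Zr muInf J (fun _ : E => trv) hJ θ
  rw [GX_trv] at h
  rw [h, Complex.ofReal_re, UJ.Zr_eq]
  have : ∀ x, UJ.Ht J (fun _ : E => trv) θ x = ∑ e, J e * Real.cos (θ e) := by
    intro x
    unfold UJ.Ht UJ.Ct trv
    simp
  simp only [this]
  simp

lemma ft_cos {a : (E → ℤ) → ℝ} (ha : Summable fun n => |a n|) (ψ θ : E → ℝ) :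
    (ft (fun n => a n * Real.cos (ip ψ n)) θ).re =
      ((ft a (θ + ψ)).re + (ft a (θ - ψ)).re) / 2 := by
  have hb : ∀ φ : E → ℝ, Summable fun n => a n * Real.cos (ip φ n) := fun φ =>
    (summ_cos ha φ).of_abs
  rw [ft_re (summ_cos ha ψ), ft_re ha, ft_re ha, ← (hb (θ + ψ)).tsum_add (hb (θ - ψ)),
    ← tsum_div_const]
  refine tsum_congr fun n => ?_
  have h1 : ip (θ + ψ) n = ip θ n + ip ψ n := ip_add θ ψ n
  have h2 : ip (θ - ψ) n = ip θ n - ip ψ n := by
    rw [sub_eq_add_neg, ip_add, ip_neg_left]; ring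
  rw [h1, h2, Real.cos_add, Real.cos_sub]
  ring

/-- **free currents** -/
theorem lo_top {J : E → ℝ} (hJ : ∀ e, 0 ≤ J e) (ψ : E → ℝ) :
    Lo (Real.exp (-∑ e, J e * (1 - Real.cos (ψ e)))) (gw' J ⊤ 0) ψ := by
  intro θ
  have hab : Summable fun n => |gw' J ⊤ 0 n| := (gw'_summable hJ ⊤ 0).abs
  rw [ft_cos hab, ft_top hJ, ft_top hJ, ft_top hJ, ← Real.exp_add]
  set u : ℝ := ∑ e, J e * Real.cos ((θ + ψ) e) with hu
  set v : ℝ := ∑ e, J e * Real.cos ((θ - ψ) e) with hv
  have h1 : -∑ e, J e * (1 - Real.cos (ψ e)) + ∑ e, J e * Real.cos (θ e) ≤ (u + v) / 2 := by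
    rw [hu, hv, ← Finset.sum_add_distrib, Finset.sum_div, ← Finset.sum_neg_distrib,
      ← Finset.sum_add_distrib]
    refine Finset.sum_le_sum fun e _ => ?_
    rw [Pi.add_apply, Pi.sub_apply, Real.cos_add, Real.cos_sub]
    have h2 : 0 ≤ 1 - Real.cos (ψ e) := by linarith [Real.cos_le_one (ψ e)]
    have h3 : 0 ≤ 1 - Real.cos (θ e) := by linarith [Real.cos_le_one (θ e)]
    have h4 := mul_nonneg (hJ e) (mul_nonneg h2 h3)
    nlinarith
  have h2 : Real.exp ((u + v) / 2) ≤ (Real.exp u + Real.exp v) / 2 := by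
    have e1 : Real.exp ((u + v) / 2) ^ 2 = Real.exp u * Real.exp v := by
      rw [← Real.exp_add, ← Real.exp_nat_mul]
      congr 1
      push_cast
      ring
    have hp := Real.exp_pos u
    have hq := Real.exp_pos v
    have hr := Real.exp_pos ((u + v) / 2)
    nlinarith [sq_nonneg (Real.exp u - Real.exp v)]
  exact (Real.exp_le_exp.2 h1).trans h2

end Vale.Agent.P159.H879
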