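import Vale.Agent.P159.H879.BlkLow

/-!
STARTV (B2), part 6: the circulation of the increments of the angle around the cells of the plane.
-/

set_option linter.all false

open Filter Topology

namespace Vale.Agent.P159.H879

open Vale.Agent.P159

/-- the increments of the angle on the (dual) edges of the plane -/
noncomputable def UU (l : ℕ) (c : ℤ × ℤ) (t : Bool) : ℝ :=
  if t then UJ.inc l 0 (c + (1, 0)) (c + (1, 1)) else UJ.inc l 0 (c + (0, 1)) (c + (1, 1))

/-- circulation around a cell -/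
def curl (P : ℤ × ℤ → Bool → ℝ) (c : ℤ × ℤ) : ℝ :=
  (P (c - (1, 0)) true - P c true) + (P c false - P (c - (0, 1)) false)

/-- the central cell -/
def cen (l : ℕ) : ℤ × ℤ := (((l / 2 : ℕ) : ℤ), ((l / 2 : ℕ) : ℤ))

lemma wf_re (l : ℕ) (z : ℤ × ℤ) : (UJ.wf l 0 z).re = (z.1 : ℝ) - ((cen l).1 : ℝ) - 1 / 2 := by
  rw [UJ.H664.wf_zero]
  unfold UJ.zc UJ.cc UJ.ctr cen
  simp only [Complex.sub_re, Int.cast_natCast]
  ring

lemma wf_im (l : ℕ) (z : ℤ × ℤ) : (UJ.wf l 0 z).im = (z.2 : ℝ) - ((cen l).2 : ℝ) - 1 / 2 := by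
  rw [UJ.H664.wf_zero]
  unfold UJ.zc UJ.cc UJ.ctr cen
  simp only [Complex.sub_im, Int.cast_natCast]
  ring

lemma arg_div_le {x y : ℂ} (h : 0 ≤ x.re * y.re + x.im * y.im) :
    |Complex.arg (x / y)| ≤ Real.pi / 2 := by
  rw [Complex.abs_arg_le_pi_div_two_iff, Complex.div_re, ← add_div]
  exact div_nonneg h (Complex.normSq_nonneg _)

lemma arg_div_lt {x y : ℂ} (hy : y ≠ 0) (h : 0 < x.re * y.re + x.im * y.im) :
    |Complex.arg (x / y)| < Real.pi / 2 := by
  rw [Complex.abs_arg_lt_pi_div_two_iff, Complex.div_re, ← add_div]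
  exact Or.inl (div_pos h (Complex.normSq_pos.2 hy))

lemma curl_UU_eq (l : ℕ) (c : ℤ × ℤ) : curl (UU l) c =
    (Complex.arg (UJ.wf l 0 c / UJ.wf l 0 (c + (0, 1))) -
      Complex.arg (UJ.wf l 0 (c + (1, 0)) / UJ.wf l 0 (c + (1, 1)))) +
    (Complex.arg (UJ.wf l 0 (c + (0, 1)) / UJ.wf l 0 (c + (1, 1))) -
      Complex.arg (UJ.wf l 0 c / UJ.wf l 0 (c + (1, 0)))) := by
  unfold curl UU UJ.inc
  simp only [if_true, Bool.false_eq_true, if_false]
  have e1 : c - (1, 0) + (1, 0) = c := by abel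
  have e2 : c - (1, 0) + (1, 1) = c + (0, 1) := by ext <;> simp
  have e3 : c - (0, 1) + (0, 1) = c := by abel
  have e4 : c - (0, 1) + (1, 1) = c + (1, 0) := by ext <;> simp
  rw [e1, e2, e3, e4]

/-- the circulation is a multiple of `2 π` -/
lemma curl_UU_int (l : ℕ) (c : ℤ × ℤ) : ∃ n : ℤ, curl (UU l) c = 2 * Real.pi * n := by
  have h : ((curl (UU l) c : ℝ) : Real.Angle) = ((0 : ℝ) : Real.Angle) := by
    rw [curl_UU_eq, Real.Angle.coe_add, Real.Angle.coe_sub, Real.Angle.coe_sub, Real.Angle.coe_zero]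
    rw [Complex.arg_div_coe_angle (UJ.H664.wf_ne0 l _) (UJ.H664.wf_ne0 l _),
      Complex.arg_div_coe_angle (UJ.H664.wf_ne0 l _) (UJ.H664.wf_ne0 l _),
      Complex.arg_div_coe_angle (UJ.H664.wf_ne0 l _) (UJ.H664.wf_ne0 l _),
      Complex.arg_div_coe_angle (UJ.H664.wf_ne0 l _) (UJ.H664.wf_ne0 l _)]
    abel
  rw [Real.Angle.angle_eq_iff_two_pi_dvd_sub] at h
  obtain ⟨n, hn⟩ := h
  exact ⟨n, by linarith⟩

/-- **the circulation of the increments of the angle** -/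
theorem curl_UU (l : ℕ) (c : ℤ × ℤ) : curl (UU l) c = if c = cen l then 2 * Real.pi else 0 := by
  have hpi := Real.pi_pos
  split_ifs with hc
  · rw [curl_UU_eq]
    have hA : UJ.wf l 0 c = -(1 / 2) - (1 / 2) * Complex.I := by
      apply Complex.ext
      · rw [wf_re, hc]; simp
      · rw [wf_im, hc]; simp
    have hB : UJ.wf l 0 (c + (1, 0)) = 1 / 2 - (1 / 2) * Complex.I := by
      apply Complex.ext
      · rw [wf_re, hc]; simp; norm_num
      · rw [wf_im, hc]; simp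
    have hC : UJ.wf l 0 (c + (1, 1)) = 1 / 2 + (1 / 2) * Complex.I := by
      apply Complex.ext
      · rw [wf_re, hc]; simp; norm_num
      · rw [wf_im, hc]; simp; norm_num
    have hD : UJ.wf l 0 (c + (0, 1)) = -(1 / 2) + (1 / 2) * Complex.I := by
      apply Complex.ext
      · rw [wf_re, hc]; simp
      · rw [wf_im, hc]; simp; norm_num
    have nB : (1 / 2 - (1 / 2) * Complex.I : ℂ) ≠ 0 := by rw [← hB]; exact UJ.H664.wf_ne0 l _
    have nC : (1 / 2 + (1 / 2) * Complex.I : ℂ) ≠ 0 := by rw [← hC]; exact UJ.H664.wf_ne0 l _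
    have nD : (-(1 / 2) + (1 / 2) * Complex.I : ℂ) ≠ 0 := by rw [← hD]; exact UJ.H664.wf_ne0 l _
    have hI := Complex.I_mul_I
    have q1 : (-(1 / 2) - (1 / 2) * Complex.I : ℂ) / (-(1 / 2) + (1 / 2) * Complex.I) =
        Complex.I := by
      rw [div_eq_iff nD]
      linear_combination (-(1 / 2) : ℂ) * hI
    have q2 : (1 / 2 - (1 / 2) * Complex.I : ℂ) / (1 / 2 + (1 / 2) * Complex.I) =
        -Complex.I := by
      rw [div_eq_iff nC]
      linear_combination (1 / 2 : ℂ) * hI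
    have q3 : (-(1 / 2) + (1 / 2) * Complex.I : ℂ) / (1 / 2 + (1 / 2) * Complex.I) =
        Complex.I := by
      rw [div_eq_iff nC]
      linear_combination (-(1 / 2) : ℂ) * hI
    have q4 : (-(1 / 2) - (1 / 2) * Complex.I : ℂ) / (1 / 2 - (1 / 2) * Complex.I) =
        -Complex.I := by
      rw [div_eq_iff nB]
      linear_combination (-(1 / 2) : ℂ) * hI
    rw [hA, hB, hC, hD, q1, q2, q3, q4, Complex.arg_I, Complex.arg_neg_I]
    ring
  · obtain ⟨n, hn⟩ := curl_UU_int l c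
    obtain ⟨k1, hk1⟩ : ∃ k : ℤ, k = c.1 - (cen l).1 := ⟨_, rfl⟩
    obtain ⟨k2, hk2⟩ : ∃ k : ℤ, k = c.2 - (cen l).2 := ⟨_, rfl⟩
    have hk : k1 ≠ 0 ∨ k2 ≠ 0 := by
      by_contra h
      push Not at h
      apply hc
      ext
      · omega
      · omega
    have r1 : (c.1 : ℝ) - ((cen l).1 : ℝ) = k1 := by rw [hk1]; push_cast; ring
    have r2 : (c.2 : ℝ) - ((cen l).2 : ℝ) = k2 := by rw [hk2]; push_cast; ring
    have i1 : ∀ k : ℤ, (0 : ℝ) ≤ (k : ℝ) ^ 2 - k := by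
      intro k
      have : 0 ≤ k ^ 2 - k := by nlinarith [Int.le_self_sq k]
      exact_mod_cast this
    have i2 : ∀ k : ℤ, (0 : ℝ) ≤ (k : ℝ) ^ 2 + k := by
      intro k
      have := i1 (-k)
      push_cast at this
      linarith [neg_sq (k : ℝ)]
    have i3 : ∀ k : ℤ, k ≠ 0 → (1 : ℝ) ≤ (k : ℝ) ^ 2 := by
      intro k hk
      have h1 : 1 ≤ k ^ 2 := by
        have := sq_pos_of_ne_zero hk
        linarith
      exact_mod_cast h1
    -- the four scalar products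
    have d1 : (UJ.wf l 0 c).re * (UJ.wf l 0 (c + (0, 1))).re +
        (UJ.wf l 0 c).im * (UJ.wf l 0 (c + (0, 1))).im = ((k1 : ℝ) ^ 2 - k1) + (k2 : ℝ) ^ 2 := by
      rw [wf_re, wf_re, wf_im, wf_im, ← r1, ← r2]
      simp only [Prod.fst_add, Prod.snd_add, add_zero, Int.cast_add, Int.cast_one]
      ring
    have d2 : (UJ.wf l 0 (c + (1, 0))).re * (UJ.wf l 0 (c + (1, 1))).re +
        (UJ.wf l 0 (c + (1, 0))).im * (UJ.wf l 0 (c + (1, 1))).im =
        ((k1 : ℝ) ^ 2 + k1) + (k2 : ℝ) ^ 2 := by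
      rw [wf_re, wf_re, wf_im, wf_im, ← r1, ← r2]
      simp only [Prod.fst_add, Prod.snd_add, add_zero, Int.cast_add, Int.cast_one]
      ring
    have d3 : (UJ.wf l 0 (c + (0, 1))).re * (UJ.wf l 0 (c + (1, 1))).re +
        (UJ.wf l 0 (c + (0, 1))).im * (UJ.wf l 0 (c + (1, 1))).im =
        (k1 : ℝ) ^ 2 + ((k2 : ℝ) ^ 2 + k2) := by
      rw [wf_re, wf_re, wf_im, wf_im, ← r1, ← r2]
      simp only [Prod.fst_add, Prod.snd_add, add_zero, Int.cast_add, Int.cast_one]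
      ring
    have d4 : (UJ.wf l 0 c).re * (UJ.wf l 0 (c + (1, 0))).re +
        (UJ.wf l 0 c).im * (UJ.wf l 0 (c + (1, 0))).im = (k1 : ℝ) ^ 2 + ((k2 : ℝ) ^ 2 - k2) := by
      rw [wf_re, wf_re, wf_im, wf_im, ← r1, ← r2]
      simp only [Prod.fst_add, Prod.snd_add, add_zero, Int.cast_add, Int.cast_one]
      ring
    have s1 := sq_nonneg (k1 : ℝ)
    have s2 := sq_nonneg (k2 : ℝ)
    have a1 := arg_div_le (x := UJ.wf l 0 c) (y := UJ.wf l 0 (c + (0, 1)))
      (by rw [d1]; linarith [i1 k1])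
    have a2 := arg_div_le (x := UJ.wf l 0 (c + (1, 0))) (y := UJ.wf l 0 (c + (1, 1)))
      (by rw [d2]; linarith [i2 k1])
    have a3 := arg_div_le (x := UJ.wf l 0 (c + (0, 1))) (y := UJ.wf l 0 (c + (1, 1)))
      (by rw [d3]; linarith [i2 k2])
    have a4 := arg_div_le (x := UJ.wf l 0 c) (y := UJ.wf l 0 (c + (1, 0)))
      (by rw [d4]; linarith [i1 k2])
    have hlt : |curl (UU l) c| < 2 * Real.pi := by
      rw [curl_UU_eq]
      rw [abs_le] at a1 a2 a3 a4
      have hpos : 0 < ((k1 : ℝ) ^ 2 - k1) + (k2 : ℝ) ^ 2 ∨ 0 < ((k1 : ℝ) ^ 2 + k1) + (k2 : ℝ) ^ 2 := by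
        by_contra h
        push Not at h
        rcases hk with h' | h'
        · have := i3 k1 h'
          linarith [h.1, h.2]
        · have := i3 k2 h'
          linarith [h.1, h.2]
      rcases hpos with h | h
      · have b1 := arg_div_lt (x := UJ.wf l 0 c) (UJ.H664.wf_ne0 l (c + (0, 1))) (by rw [d1]; exact h)
        rw [abs_lt] at b1 ⊢
        constructor <;> linarith [b1.1, b1.2, a2.1, a2.2, a3.1, a3.2, a4.1, a4.2]
      · have b1 := arg_div_lt (x := UJ.wf l 0 (c + (1, 0))) (UJ.H664.wf_ne0 l (c + (1, 1)))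
          (by rw [d2]; exact h)
        rw [abs_lt] at b1 ⊢
        constructor <;> linarith [b1.1, b1.2, a1.1, a1.2, a3.1, a3.2, a4.1, a4.2]
    rw [hn, abs_mul, abs_of_pos (by positivity : (0 : ℝ) < 2 * Real.pi)] at hlt
    have h1 : |(n : ℝ)| < 1 := by
      by_contra h
      push Not at h
      nlinarith
    have h2 : n = 0 := by
      by_contra h
      have h3 : 1 ≤ |n| := Int.one_le_abs h
      have h4 : (1 : ℝ) ≤ |(n : ℝ)| := by exact_mod_cast h3
      linarith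
    rw [hn, h2]
    simp

/-- bound of the increments -/
lemma UU_sq_le (l : ℕ) (c : ℤ × ℤ) (t : Bool) :
    UU l c t ^ 2 ≤ 40 / ‖UJ.wf l 0 (c + (1, 1))‖ ^ 2 := by
  unfold UU
  cases t
  · simp only [Bool.false_eq_true, if_false]
    refine UJ.H664.inc_sq_le ?_
    refine UJ.H664.zc_sub_norm l (Or.inr ?_)
    simp only [Prod.fst_add, Prod.snd_add]
    exact ⟨by ring, trivial⟩
  · simp only [if_true]
    refine UJ.H664.inc_sq_le ?_
    refine UJ.H664.zc_sub_norm l (Or.inl ?_)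
    simp only [Prod.fst_add, Prod.snd_add]
    exact ⟨trivial, by ring⟩

/-- the radius changes by at most one along an edge -/
lemma rad_sub (l : ℕ) (v : ℤ × ℤ) (t : Bool) :
    |‖UJ.wf l 0 (v - (if t then (1, 0) else (0, 1)))‖ - ‖UJ.wf l 0 v‖| ≤ 1 := by
  refine (abs_norm_sub_norm_le _ _).trans ?_
  cases t
  · simp only [Bool.false_eq_true, if_false]
    exact (UJ.H664.zc_sub_norm l (Or.inl (by simp))).le
  · simp only [if_true]
    exact (UJ.H664.zc_sub_norm l (Or.inr (by simp))).le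

end Vale.Agent.P159.H879
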