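import Vale.Agent.P159.T1.NC.Main
import Vale.Agent.P159.T1.NC.H664.YLow

/-!
STARTV (B1): where the stiffness tends to `2 / π` the vortex ratio of the blocks decays slower than
every power.
-/

set_option linter.all false

open Filter Topology
open scoped BigOperators

namespace Vale.Agent.P159.H879

open Vale.Agent.P159 Vale.Agent.P159.UJ

/-- the arithmetic of one step -/
theorem step_arith {M K : ℕ} {C1 δ S : ℝ} (hM : 1 ≤ M) (hK : 1 ≤ K) (hδ : 0 < δ)
    (hS : Real.pi * S ≤ 2 + δ / 2)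
    (hbig : Real.log 2 + 2 * Real.log (9 * K) + C1 ≤ δ / 2 * Real.log M) :
    (NN K M : ℝ) ^ (-δ) ≤
      (M : ℝ) ^ 2 / 2 * Real.exp (-(Real.pi * S * Real.log (NN K M)) - C1) := by
  have hM0 : (0 : ℝ) < M := by exact_mod_cast hM
  have hK0 : (0 : ℝ) < K := by exact_mod_cast hK
  have hN0 : (0 : ℝ) < (NN K M : ℝ) := by unfold NN; positivity
  have hML : (M : ℝ) ≤ (NN K M : ℝ) := by
    unfold NN
    have : M ≤ 8 * K * M + 1 := by nlinarith
    exact_mod_cast this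
  have hNu : (NN K M : ℝ) ≤ 9 * K * M := by
    unfold NN
    have : 8 * K * M + 1 ≤ 9 * K * M := by nlinarith [Nat.mul_pos hK hM]
    exact_mod_cast this
  have hL1 : Real.log M ≤ Real.log (NN K M) := Real.log_le_log hM0 hML
  have hL2 : Real.log (NN K M) ≤ Real.log (9 * K) + Real.log M := by
    rw [← Real.log_mul (by positivity) hM0.ne']
    exact Real.log_le_log hN0 hNu
  have hLM : 0 ≤ Real.log M := Real.log_nonneg (by exact_mod_cast hM)
  have e1 : (M : ℝ) ^ 2 / 2 = Real.exp (2 * Real.log M - Real.log 2) := by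
    rw [Real.exp_sub, Real.exp_log (by norm_num : (0 : ℝ) < 2), mul_comm, Real.exp_mul,
      Real.exp_log hM0]
    norm_cast
  rw [e1, ← Real.exp_add, Real.rpow_def_of_pos hN0, Real.exp_le_exp]
  have h1 : Real.pi * S * Real.log (NN K M) ≤ (2 + δ / 2) * Real.log (NN K M) :=
    mul_le_mul_of_nonneg_right hS (hLM.trans hL1)
  have h2 : δ / 2 * Real.log M ≤ δ / 2 * Real.log (NN K M) :=
    mul_le_mul_of_nonneg_left hL1 (by positivity)
  nlinarith [h1, h2, hL2, hbig]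

/-- **(B1)** -/
theorem block_low {b : ℝ} (hb : 0 < b) (hlow : ∀ l : ℕ, 1 ≤ l → 2 / Real.pi ≤ stiff l b)
    (hup : ∀ ε : ℝ, 0 < ε → ∃ l : ℕ, 1 ≤ l ∧ stiff l b < 2 / Real.pi + ε) {δ : ℝ} (hδ : 0 < δ) :
    ∃ (c : ℝ) (X0 : ℕ), 0 < c ∧ ∀ X : ℕ, X0 ≤ X → ∃ l : ℕ, 1 ≤ l ∧ X ≤ 2 * l ∧ l ≤ X ∧
      c * (X : ℝ) ^ (-δ) ≤ yy b l := by
  have hpi := Real.pi_pos
  obtain ⟨C1, K, hC1, hK, hstep⟩ := NC.stepU b (2 / Real.pi) hb (by positivity)
  obtain ⟨M, hMle⟩ : ∃ M : ℕ, Real.exp ((Real.log 2 + 2 * Real.log (9 * K) + C1) / (δ / 2)) ≤ M :=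
    exists_nat_ge _
  have hM0 : (0 : ℝ) < M := (Real.exp_pos _).trans_le hMle
  have hM : 1 ≤ M := by exact_mod_cast hM0
  have hbig : Real.log 2 + 2 * Real.log (9 * K) + C1 ≤ δ / 2 * Real.log M := by
    have h1 := Real.log_le_log (Real.exp_pos _) hMle
    rw [Real.log_exp, div_le_iff₀ (by positivity)] at h1
    linarith
  obtain ⟨δ0, m0, hδ0, hm0, hst⟩ := hstep M hM
  obtain ⟨l0, hl0, hsl⟩ := hup (min (δ / (2 * Real.pi)) δ0) (lt_min (by positivity) hδ0)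
  have hs1 : stiff l0 b ≤ 2 / Real.pi + δ / (2 * Real.pi) :=
    hsl.le.trans (add_le_add le_rfl (min_le_left _ _))
  have hs2 : stiff l0 b ≤ 2 / Real.pi + δ0 := hsl.le.trans (add_le_add le_rfl (min_le_right _ _))
  have hS : Real.pi * stiff l0 b ≤ 2 + δ / 2 := by
    have h1 := mul_le_mul_of_nonneg_left hs1 hpi.le
    have h2 : Real.pi * (2 / Real.pi + δ / (2 * Real.pi)) = 2 + δ / 2 := by field_simp
    linarith
  have harith := step_arith hM hK hδ hS hbig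
  set n : ℕ := NN K M with hn
  have hn1 : 1 ≤ n := by rw [hn]; unfold NN; omega
  have hn2 : 2 ≤ n := by
    rw [hn]; unfold NN
    have := Nat.mul_pos hK hM
    nlinarith
  have hn0 : (0 : ℝ) < n := by exact_mod_cast hn1
  -- one step
  have one : ∀ m : ℕ, m0 ≤ m → (n : ℝ) ^ (-δ) * yy b (l0 * m) ≤ yy b (l0 * m * n) := by
    intro m hm
    have hm1 : 1 ≤ m := hm0.trans hm
    have h1 := (hst b hb le_rfl l0 m hl0 hm (hlow l0 hl0)).2 (by
      have := hlow (l0 * m * NN K M) (Nat.mul_pos (Nat.mul_pos hl0 hm1) hn1)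
      linarith)
    refine le_trans ?_ h1
    have hy : 0 ≤ yy b (l0 * m) := by
      obtain ⟨c, p, hc, h⟩ := UJ.H664.yy_low b hb
      refine le_trans ?_ (h b hb le_rfl (l0 * m) (Nat.mul_pos hl0 hm1))
      positivity
    have h2 := mul_le_mul_of_nonneg_right harith hy
    linarith
  have many : ∀ (J m : ℕ), m0 ≤ m →
      ((n : ℝ) ^ J) ^ (-δ) * yy b (l0 * m) ≤ yy b (l0 * m * n ^ J) := by
    intro J
    induction J with
    | zero => intro m hm; simp
    | succ J ih =>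
      intro m hm
      have h1 := ih m hm
      have h2 := one (m * n ^ J) (hm.trans (Nat.le_mul_of_pos_right _ (Nat.pow_pos hn1)))
      have e1 : l0 * (m * n ^ J) = l0 * m * n ^ J := by ring
      have e2 : l0 * (m * n ^ J) * n = l0 * m * n ^ (J + 1) := by ring
      rw [e2, e1] at h2
      have e3 : ((n : ℝ) ^ (J + 1)) ^ (-δ) = (n : ℝ) ^ (-δ) * ((n : ℝ) ^ J) ^ (-δ) := by
        rw [pow_succ, Real.mul_rpow (by positivity) hn0.le]
        ring
      rw [e3, mul_assoc]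
      exact (mul_le_mul_of_nonneg_left h1 (by positivity)).trans h2
  obtain ⟨c, p, hc, hylow⟩ := UJ.H664.yy_low b hb
  have hB1 : 1 ≤ l0 * (m0 * n) := Nat.mul_pos hl0 (Nat.mul_pos hm0 hn1)
  have hB : (0 : ℝ) < ((l0 * (m0 * n) : ℕ) : ℝ) := by exact_mod_cast hB1
  refine ⟨c / ((l0 * (m0 * n) : ℕ) : ℝ) ^ p, l0 * m0, by positivity, ?_⟩
  intro X hX
  have hX1 : 1 ≤ X := (Nat.mul_pos hl0 hm0).trans_le hX
  have hXR : (0 : ℝ) < X := by exact_mod_cast hX1
  -- the last power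
  have hex : ∃ J : ℕ, X < l0 * m0 * n ^ (J + 1) := by
    refine ⟨X, ?_⟩
    have h1 : X < n ^ X := Nat.lt_pow_self (by omega)
    have h2 : n ^ X ≤ n ^ (X + 1) := Nat.pow_le_pow_right hn1 (Nat.le_succ _)
    exact (h1.trans_le h2).trans_le (Nat.le_mul_of_pos_left _ (Nat.mul_pos hl0 hm0))
  obtain ⟨J, hJ, hJmin⟩ : ∃ J : ℕ, X < l0 * m0 * n ^ (J + 1) ∧ l0 * m0 * n ^ J ≤ X := by
    by_contra hne
    push Not at hne
    have h1 : ∀ J : ℕ, l0 * m0 * n ^ J ≤ X := by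
      intro J
      induction J with
      | zero => simpa using hX
      | succ J ih =>
        by_contra h
        exact absurd ih (not_le.2 (hne J (not_le.1 h)))
    obtain ⟨J, hJ⟩ := hex
    exact absurd (h1 (J + 1)) (not_le.2 hJ)
  have hq : 0 < l0 * n ^ J := Nat.mul_pos hl0 (Nat.pow_pos hn1)
  obtain ⟨m, hmdef⟩ : ∃ m : ℕ, m = X / (l0 * n ^ J) := ⟨_, rfl⟩
  have hm1 : m0 ≤ m := by
    rw [hmdef, Nat.le_div_iff_mul_le hq]
    calc m0 * (l0 * n ^ J) = l0 * m0 * n ^ J := by ring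
      _ ≤ X := hJmin
  have hm2 : m < m0 * n := by
    rw [hmdef, Nat.div_lt_iff_lt_mul hq]
    calc X < l0 * m0 * n ^ (J + 1) := hJ
      _ = m0 * n * (l0 * n ^ J) := by ring
  have hmpos : 1 ≤ m := hm0.trans hm1
  have h3 : l0 * m * n ^ J ≤ X := by
    have := Nat.div_mul_le_self X (l0 * n ^ J)
    rw [← hmdef] at this
    calc l0 * m * n ^ J = m * (l0 * n ^ J) := by ring
      _ ≤ X := this
  have h4 : X < (m + 1) * (l0 * n ^ J) := by
    have := Nat.lt_mul_of_div_lt (Nat.lt_succ_self (X / (l0 * n ^ J))) hq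
    rw [← hmdef] at this
    exact this
  refine ⟨l0 * m * n ^ J, Nat.mul_pos (Nat.mul_pos hl0 hmpos) (Nat.pow_pos hn1), ?_, h3, ?_⟩
  · have h5 : (m + 1) * (l0 * n ^ J) ≤ 2 * (l0 * m * n ^ J) := by
      have : (m + 1) ≤ 2 * m := by omega
      calc (m + 1) * (l0 * n ^ J) ≤ 2 * m * (l0 * n ^ J) := Nat.mul_le_mul_right _ this
        _ = 2 * (l0 * m * n ^ J) := by ring
    omega
  · refine le_trans ?_ (many J m hm1)
    have h6 := hylow b hb le_rfl (l0 * m) (Nat.mul_pos hl0 hmpos)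
    have h7 : c / ((l0 * (m0 * n) : ℕ) : ℝ) ^ p ≤ yy b (l0 * m) := by
      refine le_trans ?_ h6
      have h8 : ((l0 * m : ℕ) : ℝ) ≤ ((l0 * (m0 * n) : ℕ) : ℝ) := by
        exact_mod_cast Nat.mul_le_mul_left l0 hm2.le
      have h9 : (0 : ℝ) < ((l0 * m : ℕ) : ℝ) := by exact_mod_cast Nat.mul_pos hl0 hmpos
      exact div_le_div_of_nonneg_left hc.le (by positivity)
        (pow_le_pow_left₀ h9.le h8 p)
    have h10 : (X : ℝ) ^ (-δ) ≤ ((n : ℝ) ^ J) ^ (-δ) := by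
      have h11 : ((n : ℝ) ^ J) ≤ X := by
        have : n ^ J ≤ X := (Nat.le_mul_of_pos_left _ (Nat.mul_pos hl0 hm0)).trans hJmin
        exact_mod_cast this
      exact Real.rpow_le_rpow_of_nonpos (by positivity) h11 (by linarith)
    have h12 : 0 ≤ (X : ℝ) ^ (-δ) := by positivity
    calc c / ((l0 * (m0 * n) : ℕ) : ℝ) ^ p * (X : ℝ) ^ (-δ)
        = (X : ℝ) ^ (-δ) * (c / ((l0 * (m0 * n) : ℕ) : ℝ) ^ p) := by ring
      _ ≤ ((n : ℝ) ^ J) ^ (-δ) * yy b (l0 * m) :=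
          mul_le_mul h10 h7 (by positivity) (by positivity)

end Vale.Agent.P159.H879
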